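import Mathlib

/-
Reciprocal sums of primes congruent to 1 mod 4 over long ranges (elementary Mertens argument).
-/

namespace Vale.Agent.P015

open Finset
open ArithmeticFunction (vonMangoldt)

/-- the nontrivial character mod 4, real valued -/
noncomputable def chi (n : ℕ) : ℝ := ((ZMod.χ₄ (n : ZMod 4) : ℤ) : ℝ)

lemma chi_mul (a b : ℕ) : chi (a * b) = chi a * chi b := by
  unfold chi
  push_cast
  rw [map_mul]
  push_cast
  ring

lemma chi_eq (n : ℕ) :
    chi n = if n % 4 = 1 then 1 else if n % 4 = 3 then -1 else 0 := by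
  unfold chi
  rw [ZMod.χ₄_nat_mod_four]
  have : n % 4 = 0 ∨ n % 4 = 1 ∨ n % 4 = 2 ∨ n % 4 = 3 := by omega
  rcases this with h | h | h | h <;> rw [h]
  · have : ZMod.χ₄ ((0 : ℕ) : ZMod 4) = 0 := by decide
    simp
  · have : ZMod.χ₄ ((1 : ℕ) : ZMod 4) = 1 := by decide
    rw [this]; simp
  · have : ZMod.χ₄ ((2 : ℕ) : ZMod 4) = 0 := by decide
    rw [this]; simp
  · have : ZMod.χ₄ ((3 : ℕ) : ZMod 4) = -1 := by decide
    rw [this]; simp

noncomputable def G (n : ℕ) : ℝ := if n % 4 = 1 ∨ n % 4 = 2 then 1 else 0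

lemma G_succ (n : ℕ) : G (n + 1) = G n + chi (n + 1) := by
  rw [chi_eq]
  unfold G
  have : n % 4 = 0 ∨ n % 4 = 1 ∨ n % 4 = 2 ∨ n % 4 = 3 := by omega
  rcases this with h | h | h | h
  · have : (n + 1) % 4 = 1 := by omega
    simp [h, this]
  · have : (n + 1) % 4 = 2 := by omega
    simp [h, this]
  · have : (n + 1) % 4 = 3 := by omega
    simp [h, this]
  · have : (n + 1) % 4 = 0 := by omega
    simp [h, this]

lemma G_nonneg (n : ℕ) : 0 ≤ G n := by unfold G; split <;> norm_num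

lemma G_le (n : ℕ) : G n ≤ 1 := by unfold G; split <;> norm_num

/-- Abel bound -/
lemma abel_bound (f : ℕ → ℝ) (M : ℕ) (hf : ∀ n, M < n → f (n + 1) ≤ f n)
    (hpos : ∀ n, M < n → 0 ≤ f n) {N : ℕ} (hMN : M ≤ N) :
    |∑ n ∈ Ioc M N, chi n * f n| ≤ f (M + 1) := by
  have key : ∀ N, M ≤ N →
      0 ≤ (∑ n ∈ Ioc M N, chi n * f n) + G M * f (M + 1) - G N * f (N + 1) ∧
      (∑ n ∈ Ioc M N, chi n * f n) + G M * f (M + 1) - G N * f (N + 1)
        ≤ f (M + 1) - f (N + 1) := by
    intro N hN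
    induction N, hN using Nat.le_induction with
    | base => simp
    | succ N hN ih =>
      rw [Finset.sum_Ioc_succ_top hN, G_succ]
      have hd := hf (N + 1) (by omega)
      have hg0 := G_nonneg (N + 1)
      have hg1 := G_le (N + 1)
      rw [G_succ] at hg0 hg1
      constructor <;> nlinarith [ih.1, ih.2]
  obtain ⟨h1, h2⟩ := key N hMN
  have h3 := hpos (M + 1) (by omega)
  have h4 := hpos (N + 1) (by omega)
  have a1 := mul_nonneg (G_nonneg M) h3
  have a2 : G M * f (M + 1) ≤ f (M + 1) := mul_le_of_le_one_left h3 (G_le M)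
  have a3 := mul_nonneg (G_nonneg N) h4
  have a4 : G N * f (N + 1) ≤ f (N + 1) := mul_le_of_le_one_left h4 (G_le N)
  rw [abs_le]; constructor <;> linarith

noncomputable def invChi : ArithmeticFunction ℝ :=
  ⟨fun n => chi n / n, by simp⟩

noncomputable def manChi : ArithmeticFunction ℝ :=
  ⟨fun n => vonMangoldt n * chi n / n, by simp⟩

lemma conv_eq (n : ℕ) : (manChi * invChi) n = chi n * Real.log n / n := by
  rw [ArithmeticFunction.mul_apply]
  have h1 : ∀ x ∈ n.divisorsAntidiagonal,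
      manChi x.1 * invChi x.2 = (chi n / n) * vonMangoldt x.1 := by
    intro x hx
    rw [Nat.mem_divisorsAntidiagonal] at hx
    show vonMangoldt x.1 * chi x.1 / (x.1 : ℝ) * (chi x.2 / (x.2 : ℝ)) = _
    rw [← hx.1, chi_mul, Nat.cast_mul, div_mul_div_comm]
    ring
  rw [sum_congr rfl h1, ← mul_sum,
    Nat.sum_divisorsAntidiagonal fun i _ => vonMangoldt i,
    ArithmeticFunction.vonMangoldt_sum]
  ring

lemma log_div_bound (N : ℕ) :
    |∑ n ∈ Ioc 0 N, chi n * (Real.log n / n)| ≤ 3 := by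
  have hsmall : ∀ n : ℕ, 1 ≤ n → |chi n * (Real.log n / n)| ≤ 1 := by
    intro n hn
    have hc : |chi n| ≤ 1 := by
      rw [chi_eq]; split_ifs <;> simp
    have hn' : (1:ℝ) ≤ n := by exact_mod_cast hn
    have h1 : 0 ≤ Real.log n / n := div_nonneg (Real.log_nonneg hn') (by linarith)
    have h2 : Real.log n / n ≤ 1 := by
      rw [div_le_one (by linarith)]
      exact Real.log_le_self (by linarith)
    rw [abs_mul, abs_of_nonneg h1]
    calc |chi n| * (Real.log n / n) ≤ 1 * 1 := by gcongr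
      _ = 1 := by norm_num
  by_cases hN : N ≤ 2
  · refine (abs_sum_le_sum_abs _ _).trans ?_
    calc _ ≤ ∑ n ∈ Ioc 0 N, (1:ℝ) := sum_le_sum fun n hn => hsmall n (mem_Ioc.1 hn).1
      _ ≤ 3 := by
        simp only [sum_const, Nat.card_Ioc, Nat.smul_one_eq_cast]
        exact_mod_cast (by omega : N - 0 ≤ 3)
  · push Not at hN
    rw [← sum_Ioc_consecutive _ (by omega : 0 ≤ 2) (by omega : 2 ≤ N)]
    refine (abs_add_le _ _).trans ?_
    have h1 : |∑ n ∈ Ioc 0 2, chi n * (Real.log n / n)| ≤ 2 := by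
      refine (abs_sum_le_sum_abs _ _).trans ?_
      calc _ ≤ ∑ n ∈ Ioc 0 2, (1:ℝ) := sum_le_sum fun n hn => hsmall n (mem_Ioc.1 hn).1
        _ ≤ 2 := by simp
    have h2 := abel_bound (fun n => Real.log n / n) 2 ?_ ?_ (le_of_lt hN)
    · have h3 : Real.log ((2 + 1 : ℕ) : ℝ) / ((2 + 1 : ℕ) : ℝ) ≤ 1 := by
        have := Real.log_le_self (show (0:ℝ) ≤ 3 by norm_num)
        norm_num
        linarith
      linarith
    · intro n hn
      have hn' : (3:ℝ) ≤ n := by exact_mod_cast hn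
      have he : Real.exp 1 ≤ (n:ℝ) := by
        have := Real.exp_one_lt_three
        linarith
      exact Real.log_div_self_antitoneOn (Set.mem_Ici.2 he)
        (Set.mem_Ici.2 (by push_cast; linarith)) (by push_cast; linarith)
    · intro n hn
      exact div_nonneg (Real.log_natCast_nonneg n) (Nat.cast_nonneg _)

/-- partial sums of `L(1,χ)` -/
noncomputable def Lsum (M : ℕ) : ℝ := ∑ m ∈ Ioc 0 M, invChi m

lemma Lsum_dist {M N : ℕ} (h : M ≤ N) : |Lsum N - Lsum M| ≤ 1 / ((M:ℝ) + 1) := by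
  have h0 : Lsum N - Lsum M = ∑ n ∈ Ioc M N, chi n * (1 / (n:ℝ)) := by
    unfold Lsum
    rw [← sum_Ioc_consecutive _ (Nat.zero_le M) h]
    rw [add_sub_cancel_left]
    refine sum_congr rfl fun n _ => ?_
    show chi n / (n:ℝ) = _
    ring
  rw [h0]
  have := abel_bound (fun n => 1 / (n:ℝ)) M ?_ ?_ h
  · simpa using this
  · intro n hn
    have : (0:ℝ) < n := by exact_mod_cast (by omega : 0 < n)
    push_cast
    gcongr
    linarith
  · intro n _
    positivity

lemma Lsum_lower {N : ℕ} (h : 1 ≤ N) : 1 / 2 ≤ Lsum N := by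
  have h1 : Lsum 1 = 1 := by
    unfold Lsum
    rw [show Ioc 0 1 = {1} from rfl, sum_singleton]
    show chi 1 / ((1:ℕ):ℝ) = 1
    rw [chi_eq]; norm_num
  have := Lsum_dist h
  rw [h1, abs_le] at this
  norm_num at this
  linarith [this.1]

lemma manChi_bound (N : ℕ) :
    |∑ d ∈ Ioc 0 N, manChi d| ≤ 2 * (3 + (Real.log 4 + 4)) := by
  have hC : 0 ≤ Real.log 4 := Real.log_nonneg (by norm_num)
  rcases Nat.eq_zero_or_pos N with rfl | hN
  · simp; linarith
  have h := ArithmeticFunction.sum_Ioc_mul_eq_sum_sum manChi invChi N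
  have hS : |∑ d ∈ Ioc 0 N, manChi d * Lsum (N / d)| ≤ 3 := by
    have e : ∑ d ∈ Ioc 0 N, manChi d * Lsum (N / d)
        = ∑ n ∈ Ioc 0 N, chi n * (Real.log n / n) := by
      unfold Lsum
      rw [← h]
      refine sum_congr rfl fun n _ => ?_
      rw [conv_eq]; ring
    rw [e]; exact log_div_bound N
  have hdiff : |∑ d ∈ Ioc 0 N, manChi d * (Lsum N - Lsum (N / d))| ≤ Real.log 4 + 4 := by
    refine (abs_sum_le_sum_abs _ _).trans ?_
    calc _ ≤ ∑ d ∈ Ioc 0 N, vonMangoldt d / (N:ℝ) := by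
          refine sum_le_sum fun d hd => ?_
          rw [mem_Ioc] at hd
          have hd0 : (0:ℝ) < d := by exact_mod_cast hd.1
          rw [abs_mul]
          have h1 : |manChi d| ≤ vonMangoldt d / (d:ℝ) := by
            show |vonMangoldt d * chi d / (d:ℝ)| ≤ _
            rw [abs_div, abs_mul, abs_of_nonneg ArithmeticFunction.vonMangoldt_nonneg,
              abs_of_pos hd0]
            have : |chi d| ≤ 1 := by rw [chi_eq]; split_ifs <;> simp
            gcongr
            exact mul_le_of_le_one_right ArithmeticFunction.vonMangoldt_nonneg this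
          have h2 : |Lsum N - Lsum (N / d)| ≤ (d:ℝ) / N := by
            refine (Lsum_dist (Nat.div_le_self N d)).trans ?_
            rw [div_le_div_iff₀ (by positivity) (by exact_mod_cast hN), one_mul]
            have := Nat.lt_mul_div_succ N hd.1
            exact_mod_cast this.le
          calc _ ≤ vonMangoldt d / (d:ℝ) * ((d:ℝ) / N) :=
                mul_le_mul h1 h2 (abs_nonneg _)
                  (div_nonneg ArithmeticFunction.vonMangoldt_nonneg hd0.le)
            _ = _ := by field_simp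
      _ = Chebyshev.psi N / N := by
          rw [← sum_div, Chebyshev.psi, Nat.floor_natCast]
      _ ≤ _ := by
          rw [div_le_iff₀ (by exact_mod_cast hN)]
          exact Chebyshev.psi_le_const_mul_self (Nat.cast_nonneg N)
  have hsum : (∑ d ∈ Ioc 0 N, manChi d) * Lsum N
      = ∑ d ∈ Ioc 0 N, manChi d * Lsum (N / d)
        + ∑ d ∈ Ioc 0 N, manChi d * (Lsum N - Lsum (N / d)) := by
    rw [sum_mul, ← sum_add_distrib]
    exact sum_congr rfl fun d _ => by ring
  have hb : |(∑ d ∈ Ioc 0 N, manChi d) * Lsum N| ≤ 3 + (Real.log 4 + 4) := by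
    rw [hsum]; exact (abs_add_le _ _).trans (add_le_add hS hdiff)
  have hL := Lsum_lower hN
  rw [abs_mul, abs_of_pos (by linarith : 0 < Lsum N)] at hb
  nlinarith [abs_nonneg (∑ d ∈ Ioc 0 N, manChi d)]

lemma lam_div_approx {N : ℕ} (hN : 1 ≤ N) :
    |(∑ d ∈ Ioc 0 N, vonMangoldt d / (d:ℝ)) - Real.log N| ≤ Real.log 4 + 5 := by
  have hN' : (0:ℝ) < N := by exact_mod_cast hN
  have hsum : ∑ n ∈ Ioc 0 N, Real.log n
      = ∑ d ∈ Ioc 0 N, vonMangoldt d * ((N / d : ℕ) : ℝ) := by
    rw [← ArithmeticFunction.sum_Ioc_mul_zeta_eq_sum, ArithmeticFunction.vonMangoldt_mul_zeta]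
    rfl
  have hlow : ∑ d ∈ Ioc 0 N, vonMangoldt d * ((N / d : ℕ) : ℝ)
      ≤ N * ∑ d ∈ Ioc 0 N, vonMangoldt d / (d:ℝ) := by
    rw [mul_sum]
    refine sum_le_sum fun d _ => ?_
    calc vonMangoldt d * ((N / d : ℕ) : ℝ) ≤ vonMangoldt d * ((N:ℝ) / d) :=
          mul_le_mul_of_nonneg_left Nat.cast_div_le ArithmeticFunction.vonMangoldt_nonneg
      _ = _ := by ring
  have hupp : N * (∑ d ∈ Ioc 0 N, vonMangoldt d / (d:ℝ))
      ≤ (∑ d ∈ Ioc 0 N, vonMangoldt d * ((N / d : ℕ) : ℝ)) + Chebyshev.psi N := by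
    rw [mul_sum, Chebyshev.psi, Nat.floor_natCast, ← sum_add_distrib]
    refine sum_le_sum fun d hd => ?_
    have hd0 := (mem_Ioc.1 hd).1
    have hd0' : (0:ℝ) < d := by exact_mod_cast hd0
    have : (N:ℝ) / d ≤ ((N / d : ℕ) : ℝ) + 1 := by
      rw [div_le_iff₀ hd0']
      have := Nat.lt_mul_div_succ N hd0
      have : (N:ℝ) ≤ (d:ℝ) * (((N / d : ℕ) : ℝ) + 1) := by exact_mod_cast this.le
      linarith
    calc (N:ℝ) * (vonMangoldt d / (d:ℝ)) = vonMangoldt d * ((N:ℝ) / d) := by ring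
      _ ≤ vonMangoldt d * (((N / d : ℕ) : ℝ) + 1) :=
          mul_le_mul_of_nonneg_left this ArithmeticFunction.vonMangoldt_nonneg
      _ = _ := by ring
  have hlog_up : ∑ n ∈ Ioc 0 N, Real.log n ≤ N * Real.log N := by
    calc _ ≤ ∑ n ∈ Ioc 0 N, Real.log N := by
          refine sum_le_sum fun n hn => ?_
          rw [mem_Ioc] at hn
          exact Real.log_le_log (by exact_mod_cast hn.1) (by exact_mod_cast hn.2)
      _ = _ := by simp
  have hlog_low : (N:ℝ) * Real.log N - N ≤ ∑ n ∈ Ioc 0 N, Real.log n := by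
    have e : ∀ M : ℕ, Real.log (M.factorial : ℝ) = ∑ n ∈ Ioc 0 M, Real.log n := by
      intro M
      induction M with
      | zero => simp
      | succ M ih =>
        rw [Finset.sum_Ioc_succ_top (Nat.zero_le M), Nat.factorial_succ, Nat.cast_mul,
          Real.log_mul (Nat.cast_ne_zero.2 (Nat.succ_ne_zero M))
            (Nat.cast_ne_zero.2 (Nat.factorial_ne_zero M)), ih]
        ring
    have h := Real.pow_div_factorial_le_exp (x := (N:ℝ)) hN'.le N
    have hf : (0:ℝ) < N.factorial := by exact_mod_cast Nat.factorial_pos N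
    rw [div_le_iff₀ hf] at h
    have h' := Real.log_le_log (by positivity) h
    rw [Real.log_pow, Real.log_mul (Real.exp_pos _).ne' hf.ne', Real.log_exp, e] at h'
    linarith
  have hpsi := Chebyshev.psi_le_const_mul_self hN'.le
  have hC : 0 ≤ Real.log 4 := Real.log_nonneg (by norm_num)
  rw [abs_le]
  constructor
  · nlinarith [hsum, hlow, hlog_low]
  · nlinarith [hsum, hupp, hlog_up]

lemma even_lam_bound (N : ℕ) :
    ∑ d ∈ (Ioc 0 N).filter (fun d => d % 2 = 0), vonMangoldt d / (d:ℝ) ≤ 2 := by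
  calc _ = ∑ d ∈ ((Ioc 0 N).filter (fun d => d % 2 = 0)).filter IsPrimePow,
        vonMangoldt d / (d:ℝ) := by
        refine (sum_filter_of_ne fun d _ hd => ?_).symm
        by_contra h
        exact hd (by rw [ArithmeticFunction.vonMangoldt_eq_zero_iff.2 h, zero_div])
    _ ≤ ∑ d ∈ (range (N + 1)).image (fun k => 2 ^ (k + 1)), vonMangoldt d / (d:ℝ) := by
        refine sum_le_sum_of_subset_of_nonneg ?_ fun d _ _ =>
          div_nonneg ArithmeticFunction.vonMangoldt_nonneg (Nat.cast_nonneg _)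
        intro d hd
        simp only [mem_filter, mem_Ioc] at hd
        obtain ⟨⟨⟨_, hdN⟩, he⟩, hpp⟩ := hd
        obtain ⟨p, k, hp, hk, rfl⟩ := (isPrimePow_nat_iff d).1 hpp
        have h2 : 2 ∣ p ^ k := Nat.dvd_of_mod_eq_zero he
        have := (Nat.prime_dvd_prime_iff_eq Nat.prime_two hp).1 (Nat.prime_two.dvd_of_dvd_pow h2)
        subst this
        refine mem_image.2 ⟨k - 1, mem_range.2 ?_, by congr 1; omega⟩
        have := Nat.lt_two_pow_self (n := k)
        omega
    _ ≤ ∑ k ∈ range (N + 1), (1 / 2 : ℝ) ^ (k + 1) := by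
        have hinj : Set.InjOn (fun k : ℕ => 2 ^ (k + 1)) (range (N + 1) : Set ℕ) := by
          intro a _ b _ h
          have := Nat.pow_right_injective (le_refl 2) h
          omega
        rw [sum_image hinj]
        refine sum_le_sum fun k _ => ?_
        rw [ArithmeticFunction.vonMangoldt_apply_pow (by omega),
          ArithmeticFunction.vonMangoldt_apply_prime Nat.prime_two, Nat.cast_pow, one_div_pow, Nat.cast_ofNat]
        gcongr
        have := Real.log_two_lt_d9
        norm_num at this ⊢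
        linarith
    _ ≤ 2 := by
        have : ∀ M, ∑ k ∈ range M, (1 / 2 : ℝ) ^ (k + 1) = 1 - (1 / 2 : ℝ) ^ M := by
          intro M
          induction M with
          | zero => simp
          | succ M ih => rw [sum_range_succ, ih]; ring
        rw [this]
        have : (0:ℝ) ≤ (1 / 2 : ℝ) ^ (N + 1) := by positivity
        linarith

/-- `∑ log p / p` over primes `p ≡ 1 (mod 4)` up to `N` -/
noncomputable def S1 (N : ℕ) : ℝ :=
  ∑ p ∈ (Ioc 0 N).filter (fun p => p.Prime ∧ p % 4 = 1), Real.log p / p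

lemma S1_approx : ∃ C : ℝ, ∀ N, 1 ≤ N → |S1 N - Real.log N / 2| ≤ C := by
  classical
  have hsummable := ArithmeticFunction.vonMangoldt.summable_residueClass_non_primes_div (1 : ZMod 4)
  set u := fun n : ℕ =>
    (if n.Prime then 0 else ArithmeticFunction.vonMangoldt.residueClass (1 : ZMod 4) n) / (n:ℝ)
    with hu
  refine ⟨(2 * (3 + (Real.log 4 + 4)) + (Real.log 4 + 5) + 2) + ∑' n, u n, fun N hN => ?_⟩
  have hu0 : ∀ n, 0 ≤ u n := fun n => by
    refine div_nonneg ?_ (Nat.cast_nonneg _)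
    split
    · exact le_rfl
    · exact ArithmeticFunction.vonMangoldt.residueClass_nonneg _ _
  have hub : ∑ n ∈ Ioc 0 N, u n ≤ ∑' n, u n := hsummable.sum_le_tsum _ fun n _ => hu0 n
  have hu1 : 0 ≤ ∑ n ∈ Ioc 0 N, u n := sum_nonneg fun n _ => hu0 n
  have hiff : ∀ n : ℕ, (n : ZMod 4) = 1 ↔ n % 4 = 1 := by
    intro n
    rw [← Nat.cast_one (R := ZMod 4), ZMod.natCast_eq_natCast_iff']
  have hsplit : ∑ n ∈ Ioc 0 N,
      (if n % 4 = 1 then vonMangoldt n / (n:ℝ) else 0) = S1 N + ∑ n ∈ Ioc 0 N, u n := by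
    rw [S1, sum_filter, ← sum_add_distrib]
    refine sum_congr rfl fun n _ => ?_
    simp only [hu, Set.indicator_apply, Set.mem_ofPred_eq, hiff]
    by_cases h1 : n % 4 = 1 <;> by_cases h2 : n.Prime <;>
      simp [h1, h2, ArithmeticFunction.vonMangoldt_apply_prime]
  have htwo : 2 * ∑ n ∈ Ioc 0 N, (if n % 4 = 1 then vonMangoldt n / (n:ℝ) else 0)
      = (∑ n ∈ Ioc 0 N, vonMangoldt n / (n:ℝ)) + (∑ n ∈ Ioc 0 N, manChi n)
        - ∑ d ∈ (Ioc 0 N).filter (fun d => d % 2 = 0), vonMangoldt d / (d:ℝ) := by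
    rw [sum_filter, mul_sum, ← sum_add_distrib, ← sum_sub_distrib]
    refine sum_congr rfl fun n _ => ?_
    show _ = _ + vonMangoldt n * chi n / (n:ℝ) - _
    rw [chi_eq]
    have : n % 4 = 0 ∨ n % 4 = 1 ∨ n % 4 = 2 ∨ n % 4 = 3 := by omega
    rcases this with h | h | h | h
    · have : n % 2 = 0 := by omega
      simp [h, this]
    · have : n % 2 = 1 := by omega
      simp [h, this]; ring
    · have : n % 2 = 0 := by omega
      simp [h, this]
    · have : n % 2 = 1 := by omega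
      simp [h, this]; ring
  have h1 := abs_le.1 (manChi_bound N)
  have h2 := abs_le.1 (lam_div_approx hN)
  have h3 := even_lam_bound N
  have h4 : 0 ≤ ∑ d ∈ (Ioc 0 N).filter (fun d => d % 2 = 0), vonMangoldt d / (d:ℝ) :=
    sum_nonneg fun d _ => div_nonneg ArithmeticFunction.vonMangoldt_nonneg (Nat.cast_nonneg _)
  have hC : 0 ≤ Real.log 4 := Real.log_nonneg (by norm_num)
  rw [abs_le]
  constructor <;> linarith [hsplit, htwo, h1.1, h1.2, h2.1, h2.2]

/-- the primes `p ≡ 1 (mod 4)` in `(K, K^A]` -/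
def pset (K A : ℕ) : Finset ℕ := (Ioc K (K ^ A)).filter (fun p => p.Prime ∧ p % 4 = 1)

theorem recip_sum_large (b : ℕ) :
    ∃ A K0 : ℕ, 1 ≤ A ∧ 2 ≤ K0 ∧ ∀ K, K0 ≤ K → (b:ℝ) ≤ ∑ p ∈ pset K A, (1:ℝ) / p := by
  obtain ⟨C, hC⟩ := S1_approx
  obtain ⟨K1, hK1⟩ := exists_nat_ge (Real.exp (4 * C))
  refine ⟨4 ^ (4 * b), max 2 K1, Nat.one_le_pow _ _ (by norm_num), le_max_left _ _,
    fun K hK => ?_⟩
  have hK2 : 2 ≤ K := le_trans (le_max_left _ _) hK
  have hlK : 4 * C ≤ Real.log K := by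
    rw [Real.le_log_iff_exp_le (by exact_mod_cast (by omega : 0 < K))]
    exact hK1.trans (by exact_mod_cast le_trans (le_max_right _ _) hK)
  have hlKpos : 0 < Real.log K := Real.log_pos (by exact_mod_cast hK2)
  have step : ∀ j : ℕ, (1/4 : ℝ) ≤ ∑ p ∈ (Ioc (K ^ 4 ^ j) (K ^ 4 ^ (j + 1))).filter
      (fun p => p.Prime ∧ p % 4 = 1), (1:ℝ) / p := by
    intro j
    have hle : K ^ 4 ^ j ≤ K ^ 4 ^ (j + 1) :=
      Nat.pow_le_pow_right (by omega) (Nat.pow_le_pow_right (by norm_num) (by omega))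
    have hdiff : S1 (K ^ 4 ^ (j + 1)) - S1 (K ^ 4 ^ j)
        = ∑ p ∈ (Ioc (K ^ 4 ^ j) (K ^ 4 ^ (j + 1))).filter
          (fun p => p.Prime ∧ p % 4 = 1), Real.log p / p := by
      rw [S1, S1, sum_filter, sum_filter, sum_filter,
        ← sum_Ioc_consecutive _ (Nat.zero_le _) hle]
      ring
    have a1 := abs_le.1 (hC (K ^ 4 ^ (j + 1)) (Nat.one_le_pow _ _ (by omega)))
    have a2 := abs_le.1 (hC (K ^ 4 ^ j) (Nat.one_le_pow _ _ (by omega)))
    simp only [Nat.cast_pow, Real.log_pow] at a1 a2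
    have hbound : ∑ p ∈ (Ioc (K ^ 4 ^ j) (K ^ 4 ^ (j + 1))).filter
        (fun p => p.Prime ∧ p % 4 = 1), Real.log p / p
        ≤ ((4:ℝ) ^ (j + 1) * Real.log K) * ∑ p ∈ (Ioc (K ^ 4 ^ j) (K ^ 4 ^ (j + 1))).filter
          (fun p => p.Prime ∧ p % 4 = 1), (1:ℝ) / p := by
      rw [mul_sum]
      refine sum_le_sum fun p hp => ?_
      simp only [mem_filter, mem_Ioc] at hp
      have hlp : Real.log p ≤ (4:ℝ) ^ (j + 1) * Real.log K := by
        have h := Real.log_le_log (by exact_mod_cast hp.2.1.pos)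
          (show (p:ℝ) ≤ ((K:ℝ) ^ 4 ^ (j + 1)) by exact_mod_cast hp.1.2)
        rw [Real.log_pow] at h
        push_cast at h
        exact h
      rw [mul_one_div]
      gcongr
    have h4 : (0:ℝ) < (4:ℝ) ^ j := by positivity
    have h41 : (1:ℝ) ≤ (4:ℝ) ^ j := one_le_pow₀ (by norm_num)
    push_cast at a1 a2
    by_contra hlt
    push Not at hlt
    have hX : (0:ℝ) < (4:ℝ) ^ (j + 1) * Real.log K := by positivity
    have hlt' := mul_lt_mul_of_pos_left hlt hX
    have hX' : (4:ℝ) ^ (j + 1) = (4:ℝ) ^ j * 4 := pow_succ _ _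
    rw [hX'] at a1 hlt' hbound
    nlinarith [mul_pos h4 hlKpos, mul_le_mul_of_nonneg_right h41 hlKpos.le]
  have chain : ∀ J : ℕ, (J:ℝ) / 4 ≤ ∑ p ∈ pset K (4 ^ J), (1:ℝ) / p := by
    intro J
    induction J with
    | zero => simp [pset]
    | succ J ih =>
      have h1 : K ≤ K ^ 4 ^ J := Nat.le_self_pow (by positivity) K
      have h2 : K ^ 4 ^ J ≤ K ^ 4 ^ (J + 1) :=
        Nat.pow_le_pow_right (by omega) (Nat.pow_le_pow_right (by norm_num) (by omega))
      unfold pset at ih ⊢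
      rw [sum_filter] at ih ⊢
      rw [← sum_Ioc_consecutive _ h1 h2]
      have := step J
      rw [sum_filter] at this
      push_cast
      linarith
  have := chain (4 * b)
  push_cast at this
  linarith

end Vale.Agent.P015
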