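import Mathlib

/-
An elementary n-th moment sieve: a set of integers in an interval avoiding residue sets
modulo primes that fall in n groups, each group of total density at least M, has size
at most 2N/M^n.
-/

namespace Vale.Agent.P015

open Finset

lemma sum_zmod_shift {M : ℕ} [NeZero M] (Φ : ZMod M → ℝ) (c : ZMod M) :
    ∑ i ∈ range M, Φ (c + (i : ZMod M)) = ∑ x, Φ x := by
  rw [← Fin.sum_univ_eq_sum_range (fun i : ℕ => Φ (c + (i : ZMod M))) M]
  refine Fintype.sum_equiv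
    ((Equiv.ofBijective (fun i : Fin M => (i.val : ZMod M))
      ((Fintype.bijective_iff_injective_and_card _).2 ⟨?_, by simp⟩)).trans (Equiv.addLeft c))
    _ _ (fun i => rfl)
  intro i j h
  have := congrArg ZMod.val h
  simp only [ZMod.val_natCast, Nat.mod_eq_of_lt i.2, Nat.mod_eq_of_lt j.2] at this
  exact Fin.ext this

lemma periodic_sum_bound {M : ℕ} [NeZero M] (Φ : ZMod M → ℝ) (a : ℤ) (N : ℕ) :
    |∑ i ∈ range N, Φ ((a + (i : ℤ) : ℤ) : ZMod M) - (N:ℝ) / M * ∑ x, Φ x|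
      ≤ 2 * ∑ x, |Φ x| := by
  have hM : 0 < M := Nat.pos_of_ne_zero (NeZero.ne M)
  set c : ZMod M := (a : ZMod M) with hc
  have hcast : ∀ i : ℕ, ((a + (i : ℤ) : ℤ) : ZMod M) = c + (i : ZMod M) := by
    intro i; push_cast; rfl
  simp only [hcast]
  have hfull : ∀ q : ℕ, ∑ i ∈ range (M * q), Φ (c + (i : ZMod M)) = (q:ℝ) * ∑ x, Φ x := by
    intro q
    induction q with
    | zero => simp
    | succ q ih =>
      rw [Nat.mul_succ, sum_range_add, ih]
      have : ∀ i : ℕ, ((M * q + i : ℕ) : ZMod M) = (i : ZMod M) := by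
        intro i; push_cast; simp
      simp only [this, sum_zmod_shift]
      push_cast; ring
  have hN : N = M * (N / M) + N % M := (Nat.div_add_mod N M).symm
  have hsum : ∑ i ∈ range N, Φ (c + (i : ZMod M)) = ((N / M : ℕ) : ℝ) * ∑ x, Φ x
      + ∑ i ∈ range (N % M), Φ (c + (i : ZMod M)) := by
    conv_lhs => rw [hN]
    rw [sum_range_add, hfull]
    refine congrArg _ (sum_congr rfl fun i _ => ?_)
    push_cast; simp
  have hr : |∑ i ∈ range (N % M), Φ (c + (i : ZMod M))| ≤ ∑ x, |Φ x| := by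
    refine (abs_sum_le_sum_abs _ _).trans ?_
    rw [← sum_zmod_shift (fun x => |Φ x|) c]
    exact sum_le_sum_of_subset_of_nonneg
      (range_subset_range.2 (Nat.mod_lt N hM).le) fun i _ _ => abs_nonneg _
  have hNr : (N:ℝ) / M = ((N / M : ℕ) : ℝ) + ((N % M : ℕ) : ℝ) / M := by
    have hM' : (M:ℝ) ≠ 0 := by exact_mod_cast hM.ne'
    field_simp
    have : ((N:ℕ):ℝ) = ((M * (N / M) + N % M : ℕ) : ℝ) := by rw [← hN]
    push_cast at this
    linarith
  have hfrac : ((N % M : ℕ) : ℝ) / M ≤ 1 := by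
    rw [div_le_one (by exact_mod_cast hM)]
    exact_mod_cast (Nat.mod_lt N hM).le
  rw [hsum, hNr]
  have h2 : |((N % M : ℕ) : ℝ) / M * ∑ x, Φ x| ≤ ∑ x, |Φ x| := by
    rw [abs_mul, abs_of_nonneg (by positivity : (0:ℝ) ≤ ((N % M : ℕ) : ℝ) / M)]
    exact (mul_le_of_le_one_left (abs_nonneg _) hfrac).trans (abs_sum_le_sum_abs _ _)
  calc |((N / M : ℕ) : ℝ) * ∑ x, Φ x + ∑ i ∈ range (N % M), Φ (c + (i : ZMod M))
        - (((N / M : ℕ) : ℝ) + ((N % M : ℕ) : ℝ) / M) * ∑ x, Φ x|
      = |∑ i ∈ range (N % M), Φ (c + (i : ZMod M)) - ((N % M : ℕ) : ℝ) / M * ∑ x, Φ x| := by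
        congr 1; ring
    _ ≤ _ := by
        refine (abs_sub _ _).trans ?_
        linarith

/-- correlation of functions periodic modulo distinct primes -/
lemma prime_product_sum_bound (A : Finset ℕ) (hA : ∀ p ∈ A, p.Prime)
    (ψ : ∀ p : ℕ, ZMod p → ℝ) (hψ : ∀ p ∈ A, ∀ x, |ψ p x| ≤ 1) (a : ℤ) (N : ℕ)
    [∀ p : {p // p ∈ A}, NeZero (p : ℕ)] :
    ∑ i ∈ range N, ∏ p ∈ A, ψ p ((a + (i : ℤ) : ℤ) : ZMod p)
      ≤ (N:ℝ) * ∏ p : {p // p ∈ A}, ((∑ x, ψ p x) / (p : ℕ)) + 2 * ∏ p ∈ A, (p:ℝ) := by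
  classical
  let d : {p // p ∈ A} → ℕ := fun p => p
  have hcop : Pairwise (Function.onFun Nat.Coprime d) := by
    intro p q hpq
    exact (Nat.coprime_primes (hA p p.2) (hA q q.2)).2 (fun h => hpq (Subtype.ext h))
  have hM : (∏ p, d p) ≠ 0 := Finset.prod_ne_zero_iff.2 fun p _ => (hA p p.2).ne_zero
  haveI : NeZero (∏ p, d p) := ⟨hM⟩
  haveI : ∀ p : {p // p ∈ A}, NeZero (d p) := fun p => ⟨(hA p p.2).ne_zero⟩
  let e := ZMod.prodEquivPi d hcop
  let Φ : ZMod (∏ p, d p) → ℝ := fun x => ∏ p : {p // p ∈ A}, ψ p (e x p)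
  have hterm : ∀ t : ℤ, ∏ p ∈ A, ψ p (t : ZMod p) = Φ (t : ZMod (∏ p, d p)) := by
    intro t
    rw [← Finset.prod_coe_sort]
    refine Finset.prod_congr rfl fun p _ => ?_
    rw [map_intCast e t, Pi.intCast_apply]
  have hΦsum : ∑ x, Φ x = ∏ p : {p // p ∈ A}, ∑ x, ψ p x := by
    rw [Fintype.prod_sum]
    exact Fintype.sum_equiv e.toEquiv _ _ fun x => rfl
  have hΦabs : ∑ x, |Φ x| ≤ ∏ p ∈ A, (p:ℝ) := by
    calc ∑ x, |Φ x| ≤ ∑ _x : ZMod (∏ p, d p), (1:ℝ) := by
          refine sum_le_sum fun x _ => ?_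
          rw [Finset.abs_prod]
          exact Finset.prod_le_one (fun p _ => abs_nonneg _) (fun p _ => hψ p p.2 _)
      _ = _ := by
          simp only [sum_const, card_univ, ZMod.card, nsmul_eq_mul, mul_one]
          rw [← Finset.prod_coe_sort A (fun p => (p:ℝ))]
          push_cast
          rfl
  have h := (abs_le.1 (periodic_sum_bound Φ a N)).2
  simp only [hterm]
  have hmean : (N:ℝ) / ((∏ p, d p : ℕ) : ℝ) * ∑ x, Φ x
      = (N:ℝ) * ∏ p : {p // p ∈ A}, ((∑ x, ψ p x) / (p : ℕ)) := by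
    rw [hΦsum, Finset.prod_div_distrib]
    push_cast
    rw [div_mul_eq_mul_div, ← mul_div_assoc]
  linarith

/-- the sieve bound -/
theorem sieve_bound (P : Finset ℕ) (hP : ∀ p ∈ P, p.Prime) (Pm : ℕ) (hPm : ∀ p ∈ P, p ≤ Pm)
    (n : ℕ) (lab : ℕ → Fin n) (Ω : ∀ p : ℕ, Finset (ZMod p))
    (S : Finset ℤ) (a : ℤ) (N : ℕ) (hS : ∀ t ∈ S, a ≤ t ∧ t < a + N)
    (havoid : ∀ t ∈ S, ∀ p ∈ P, (t : ZMod p) ∉ Ω p)
    (M : ℝ) (hM : 1 ≤ M)
    (hgroup : ∀ j, M ≤ ∑ p ∈ P.filter (fun p => lab p = j), ((Ω p).card : ℝ) / p)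
    (hN : 2 * Pm ^ (4 * n) ≤ N) :
    (S.card : ℝ) ≤ 2 * N / M ^ n := by
  classical
  let g : ∀ p : ℕ, ZMod p → ℝ :=
    fun p x => ((Ω p).card : ℝ) / p - (if x ∈ Ω p then 1 else 0)
  let GJ : Fin n → Finset ℕ := fun j => P.filter (fun p => lab p = j)
  let w : ℕ → ℝ := fun p => ((Ω p).card : ℝ) / p
  let H : ℝ := ∏ j, ∑ p ∈ GJ j, w p
  let F : ℤ → ℝ := fun t => ∏ j, ∑ p ∈ GJ j, g p (t : ZMod p)
  let FS : Finset (Fin n → ℕ) := Fintype.piFinset GJ
  have hH : M ^ n ≤ H := by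
    calc M ^ n = ∏ _j : Fin n, M := by simp
      _ ≤ H := Finset.prod_le_prod (fun _ _ => by linarith) fun j _ => hgroup j
  have hH1 : 1 ≤ H := le_trans (one_le_pow₀ hM) hH
  have hF : ∀ t ∈ S, F t = H := by
    intro t ht
    refine Finset.prod_congr rfl fun j _ => sum_congr rfl fun p hp => ?_
    have hpP : p ∈ P := (mem_filter.1 hp).1
    simp [g, w, havoid t ht p hpP]
  have hw1 : ∀ p ∈ P, w p ≤ 1 := by
    intro p hp
    haveI : NeZero p := ⟨(hP p hp).ne_zero⟩
    have : (Ω p).card ≤ p := by simpa using Finset.card_le_univ (Ω p)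
    rw [div_le_one (by exact_mod_cast (hP p hp).pos)]
    exact_mod_cast this
  have hg1 : ∀ p ∈ P, ∀ x, |g p x| ≤ 1 := by
    intro p hp x
    have h0 : 0 ≤ w p := by positivity
    have h1 := hw1 p hp
    simp only [w] at h0 h1
    rw [abs_le]; simp only [g]; split_ifs <;> constructor <;> linarith
  have hgmean : ∀ p ∈ P, ∀ [NeZero p], ∑ x, g p x = 0 := by
    intro p hp _
    simp only [g, sum_sub_distrib, sum_const, card_univ, ZMod.card, nsmul_eq_mul]
    rw [Finset.sum_ite_mem, univ_inter]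
    have : (p:ℝ) ≠ 0 := by exact_mod_cast (hP p hp).ne_zero
    simp; field_simp; ring
  have hgsq : ∀ p ∈ P, ∀ [NeZero p], ∑ x, g p x * g p x ≤ (Ω p).card := by
    intro p hp _
    have hpt : ∀ x, g p x * g p x
        = w p ^ 2 + (1 - 2 * w p) * (if x ∈ Ω p then 1 else 0) := by
      intro x; simp only [g, w]; split_ifs <;> ring
    simp only [hpt, sum_add_distrib, sum_const, card_univ, ZMod.card, nsmul_eq_mul, ← mul_sum]
    rw [Finset.sum_ite_mem, univ_inter]
    simp only [sum_const, nsmul_eq_mul, mul_one]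
    have hp0 : (0:ℝ) < p := by exact_mod_cast (hP p hp).pos
    have h1 := hw1 p hp
    have h0 : 0 ≤ w p := by positivity
    have hc : ((Ω p).card : ℝ) = (p:ℝ) * w p := by simp only [w]; field_simp
    rw [hc]
    nlinarith [mul_nonneg hp0.le (mul_nonneg h0 h0)]
  -- facts on the index functions
  have hfP : ∀ f ∈ FS, ∀ j, f j ∈ P ∧ lab (f j) = j := by
    intro f hf j
    exact mem_filter.1 (Fintype.mem_piFinset.1 hf j)
  have hinj : ∀ f ∈ FS, Set.InjOn f (univ : Finset (Fin n)) := by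
    intro f hf i _ j _ h
    rw [← (hfP f hf i).2, h, (hfP f hf j).2]
  have hterm : ∀ f ∈ FS, ∀ f' ∈ FS,
      ∑ i ∈ range N, (∏ j, g (f j) ((a + (i:ℤ) : ℤ) : ZMod (f j))) *
          (∏ j, g (f' j) ((a + (i:ℤ) : ℤ) : ZMod (f' j)))
      ≤ (if f = f' then (N:ℝ) * ∏ j, w (f j) else 0) + 2 * (Pm:ℝ) ^ (2 * n) := by
    intro f hf f' hf'
    let B := univ.image f
    let B' := univ.image f'
    let A := B ∪ B'
    have hAP : ∀ p ∈ A, p ∈ P := by
      intro p hp
      rcases mem_union.1 hp with h | h <;> obtain ⟨j, _, rfl⟩ := mem_image.1 h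
      · exact (hfP f hf j).1
      · exact (hfP f' hf' j).1
    haveI : ∀ p : {p // p ∈ A}, NeZero (p : ℕ) := fun p => ⟨(hP p (hAP p p.2)).ne_zero⟩
    let ψ : ∀ p : ℕ, ZMod p → ℝ :=
      fun p x => (if p ∈ B then g p x else 1) * (if p ∈ B' then g p x else 1)
    have hψ : ∀ p ∈ A, ∀ x, |ψ p x| ≤ 1 := by
      intro p hp x
      rw [abs_mul]
      refine mul_le_one₀ ?_ (abs_nonneg _) ?_ <;> split_ifs <;>
        simp [hg1 p (hAP p hp) x]
    have hprod : ∀ t : ℤ, (∏ j, g (f j) (t : ZMod (f j))) * (∏ j, g (f' j) (t : ZMod (f' j)))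
        = ∏ p ∈ A, ψ p (t : ZMod p) := by
      intro t
      rw [Finset.prod_mul_distrib, Finset.prod_ite_mem, Finset.prod_ite_mem,
        union_inter_cancel_left, union_inter_cancel_right,
        Finset.prod_image (hinj f hf), Finset.prod_image (hinj f' hf')]
    simp only [hprod]
    refine (prime_product_sum_bound A (fun p hp => hP p (hAP p hp)) ψ hψ a N).trans ?_
    have hbnd : ∏ p ∈ A, (p:ℝ) ≤ (Pm:ℝ) ^ (2 * n) := by
      rcases Nat.eq_zero_or_pos n with hn | hn
      · subst hn; simp [A, B, B']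
      have hcard : A.card ≤ 2 * n := by
        refine (card_union_le _ _).trans ?_
        have h1 := card_image_le (s := (univ : Finset (Fin n))) (f := f)
        have h2 := card_image_le (s := (univ : Finset (Fin n))) (f := f')
        simp only [card_univ, Fintype.card_fin] at h1 h2
        show B.card + B'.card ≤ _
        simp only [B, B']; omega
      have hPm1 : (1:ℝ) ≤ Pm := by
        have := hP _ (hfP f hf ⟨0, hn⟩).1
        have h2 := hPm _ (hfP f hf ⟨0, hn⟩).1
        exact_mod_cast this.one_lt.le.trans h2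
      calc ∏ p ∈ A, (p:ℝ) ≤ ∏ _p ∈ A, (Pm:ℝ) :=
            Finset.prod_le_prod (fun p _ => Nat.cast_nonneg p)
              (fun p hp => by exact_mod_cast hPm p (hAP p hp))
        _ = (Pm:ℝ) ^ A.card := by simp
        _ ≤ _ := pow_le_pow_right₀ hPm1 hcard
    refine add_le_add ?_ (by linarith)
    by_cases hff : f = f'
    · subst hff
      rw [if_pos rfl]
      refine mul_le_mul_of_nonneg_left ?_ (Nat.cast_nonneg N)
      calc ∏ p : {p // p ∈ A}, ((∑ x, ψ p x) / (p : ℕ))
          ≤ ∏ p : {p // p ∈ A}, w p := by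
            refine Finset.prod_le_prod (fun p _ => ?_) (fun p _ => ?_)
            · refine div_nonneg (sum_nonneg fun x _ => ?_) (Nat.cast_nonneg _)
              exact mul_self_nonneg _
            · have hpB : (p:ℕ) ∈ B := by
                exact (mem_union.1 p.2).elim id id
              refine div_le_div_of_nonneg_right ?_ (Nat.cast_nonneg _)
              show ∑ x, (if (p:ℕ) ∈ B then g p x else 1) * (if (p:ℕ) ∈ B then g p x else 1) ≤ _
              simp only [if_pos hpB]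
              exact hgsq p (hAP p p.2)
        _ = ∏ p ∈ A, w p := Finset.prod_coe_sort A w
        _ = ∏ j, w (f j) := by
            simp only [A, B, B', union_self, Finset.prod_image (hinj f hf)]
    · rw [if_neg hff]
      have : ∃ j, f j ∉ B' := by
        by_contra hcon
        push Not at hcon
        refine hff (funext fun j => ?_)
        obtain ⟨k, _, hk⟩ := mem_image.1 (hcon j)
        have := (hfP f' hf' k).2
        rw [hk, (hfP f hf j).2] at this
        rw [← hk, this]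
      obtain ⟨j, hj⟩ := this
      have hjB : f j ∈ B := mem_image_of_mem f (mem_univ j)
      have hjA : f j ∈ A := mem_union_left _ hjB
      have hzero : ∏ p : {p // p ∈ A}, ((∑ x, ψ p x) / (p : ℕ)) = 0 := by
        refine Finset.prod_eq_zero (mem_univ ⟨f j, hjA⟩) ?_
        simp only [ψ, if_pos hjB, if_neg hj, mul_one]
        haveI : NeZero (f j) := ⟨(hP _ (hAP _ hjA)).ne_zero⟩
        rw [hgmean (f j) (hAP _ hjA), zero_div]
      rw [hzero, mul_zero]
  have hFS : (FS.card : ℝ) ≤ (Pm:ℝ) ^ n := by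
    have hc : P.card ≤ Pm := by
      have : P ⊆ Icc 1 Pm := fun p hp => mem_Icc.2 ⟨(hP p hp).one_lt.le, hPm p hp⟩
      simpa using card_le_card this
    have : FS.card ≤ Pm ^ n := by
      rw [Fintype.card_piFinset]
      calc ∏ j, (GJ j).card ≤ ∏ _j : Fin n, Pm :=
            Finset.prod_le_prod' fun j _ => (card_le_card (filter_subset _ _)).trans hc
        _ = _ := by simp
    exact_mod_cast this
  have hsq : ∑ i ∈ range N, F (a + i) ^ 2 ≤ (N:ℝ) * H + 2 * (Pm:ℝ) ^ (4 * n) := by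
    have hexp : ∀ t : ℤ, F t ^ 2 = ∑ f ∈ FS, ∑ f' ∈ FS,
        (∏ j, g (f j) (t : ZMod (f j))) * (∏ j, g (f' j) (t : ZMod (f' j))) := by
      intro t
      simp only [F]
      rw [sq, Finset.prod_univ_sum, sum_mul_sum]
    simp only [hexp]
    rw [sum_comm]
    refine le_trans (sum_le_sum fun f hf => Finset.sum_comm.trans_le
      (sum_le_sum fun f' hf' => hterm f hf f' hf')) ?_
    simp only [sum_add_distrib, sum_ite_eq, sum_const, nsmul_eq_mul]
    have h1 : ∑ f ∈ FS, (if f ∈ FS then (N:ℝ) * ∏ j, w (f j) else 0) = (N:ℝ) * H := by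
      simp only [H]
      rw [Finset.prod_univ_sum, mul_sum]
      exact sum_congr rfl fun f hf => if_pos hf
    rw [h1]
    have h2 : (FS.card:ℝ) * ((FS.card:ℝ) * (2 * (Pm:ℝ) ^ (2 * n)))
        ≤ 2 * (Pm:ℝ) ^ (4 * n) := by
      calc (FS.card:ℝ) * ((FS.card:ℝ) * (2 * (Pm:ℝ) ^ (2 * n)))
          ≤ (Pm:ℝ) ^ n * ((Pm:ℝ) ^ n * (2 * (Pm:ℝ) ^ (2 * n))) := by gcongr
        _ = _ := by ring
    linarith
  have hlow : (S.card:ℝ) * H ^ 2 ≤ ∑ i ∈ range N, F (a + i) ^ 2 := by
    have hsub : S ⊆ (range N).image (fun i : ℕ => a + (i:ℤ)) := by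
      intro t ht
      obtain ⟨h1, h2⟩ := hS t ht
      exact mem_image.2 ⟨(t - a).toNat, mem_range.2 (by omega), by omega⟩
    calc (S.card:ℝ) * H ^ 2 = ∑ t ∈ S, F t ^ 2 := by
          rw [sum_congr rfl fun t ht => by rw [hF t ht]]; simp
      _ ≤ ∑ t ∈ (range N).image (fun i : ℕ => a + (i:ℤ)), F t ^ 2 :=
          sum_le_sum_of_subset_of_nonneg hsub fun t _ _ => sq_nonneg _
      _ = _ := sum_image (fun i _ j _ h => by simpa using h)
  have hN' : 2 * (Pm:ℝ) ^ (4 * n) ≤ N := by exact_mod_cast hN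
  have h3 : (S.card:ℝ) * H ^ 2 ≤ 2 * (N:ℝ) * H := by
    nlinarith [mul_nonneg (Nat.cast_nonneg (α := ℝ) N) (sub_nonneg.2 hH1)]
  have h4 : (S.card:ℝ) * H ≤ 2 * N := by
    refine le_of_mul_le_mul_right ?_ (lt_of_lt_of_le one_pos hH1)
    linarith [h3]
  rw [le_div_iff₀ (by positivity)]
  exact (mul_le_mul_of_nonneg_left hH (Nat.cast_nonneg _)).trans h4

/-- split a weighted finite set into n groups of weight at least 4 -/
lemma exists_groups (w : ℕ → ℝ) : ∀ (m : ℕ) (P : Finset ℕ),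
    (∀ p ∈ P, w p ≤ 1) → (∀ p ∈ P, 0 ≤ w p) → (5 * (m + 1 : ℕ) : ℝ) ≤ ∑ p ∈ P, w p →
    ∃ lab : ℕ → Fin (m + 1), ∀ j, (4:ℝ) ≤ ∑ p ∈ P.filter (fun p => lab p = j), w p := by
  classical
  intro m
  induction m with
  | zero =>
    intro P _ _ hsum
    refine ⟨fun _ => 0, fun j => ?_⟩
    rw [Fin.fin_one_eq_zero j, filter_true_of_mem (fun _ _ => rfl)]
    push_cast at hsum; linarith
  | succ m ih =>
    intro P h1 h0 hsum
    have hm : (0:ℝ) ≤ m := Nat.cast_nonneg m
    push_cast at hsum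
    let T := P.powerset.filter (fun B => (4:ℝ) ≤ ∑ p ∈ B, w p)
    have hT : T.Nonempty := ⟨P, mem_filter.2 ⟨mem_powerset_self P, by linarith⟩⟩
    obtain ⟨B, hB, hmin⟩ := exists_min_image T Finset.card hT
    obtain ⟨hBP, hB4⟩ := mem_filter.1 hB
    rw [mem_powerset] at hBP
    have hB5 : ∑ p ∈ B, w p ≤ 5 := by
      rcases B.eq_empty_or_nonempty with rfl | ⟨p, hp⟩
      · simp at hB4; linarith
      · by_contra h5
        push Not at h5
        have := hmin (B.erase p) (mem_filter.2 ⟨mem_powerset.2 ((erase_subset _ _).trans hBP), by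
          rw [← add_sum_erase _ _ hp] at h5
          linarith [h1 p (hBP hp)]⟩)
        rw [card_erase_of_mem hp] at this
        have := card_pos.2 ⟨p, hp⟩
        omega
    obtain ⟨lab, hlab⟩ := ih (P \ B) (fun p hp => h1 p (mem_sdiff.1 hp).1)
      (fun p hp => h0 p (mem_sdiff.1 hp).1) (by
        have := sum_sdiff (f := w) hBP
        push_cast
        linarith)
    refine ⟨fun p => if p ∈ B then Fin.last (m + 1) else (lab p).castSucc, fun j => ?_⟩
    induction j using Fin.lastCases with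
    | last =>
      have : P.filter (fun p => (if p ∈ B then Fin.last (m + 1) else (lab p).castSucc)
          = Fin.last (m + 1)) = B := by
        ext p
        simp only [mem_filter]
        constructor
        · intro h
          by_contra hp
          rw [if_neg hp] at h
          exact (Fin.castSucc_lt_last _).ne h.2
        · intro h; exact ⟨hBP h, by rw [if_pos h]⟩
      rw [this]; exact hB4
    | cast j =>
      have : P.filter (fun p => (if p ∈ B then Fin.last (m + 1) else (lab p).castSucc)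
          = j.castSucc) = (P \ B).filter (fun p => lab p = j) := by
        ext p
        simp only [mem_filter, mem_sdiff]
        by_cases hp : p ∈ B
        · simp [hp, (Fin.castSucc_lt_last j).ne']
        · simp [hp]
      rw [this]; exact hlab j

end Vale.Agent.P015
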