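import Mathlib
import Vale.Agent.P015.Mertens
import Vale.Agent.P015.Sieve

/-
In any arithmetic row only few Gaussian integers can start a simple path of K Gaussian primes
of norm above K^A with bounded steps.
-/

namespace Vale.Agent.P015

open Finset

/-- `z` starts a simple path of `K` Gaussian primes of norm `> Pm`, coordinate steps `≤ D` -/
def ShortPath (D Pm K : ℕ) (z : GaussianInt) : Prop :=
  ∃ y : ℕ → GaussianInt, y 0 = z ∧
    (∀ i < K, Prime (y i) ∧ Pm < (y i).norm.natAbs) ∧
    (∀ i < K, ∀ j < K, y i = y j → i = j) ∧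
    ∀ i, i + 1 < K → |(y (i + 1)).re - (y i).re| ≤ D ∧ |(y (i + 1)).im - (y i).im| ≤ D

/-- reduction to `ZMod p` along `i ↦ r` -/
def phi (p : ℕ) (r : ZMod p) (z : GaussianInt) : ZMod p := (z.re : ZMod p) + r * (z.im : ZMod p)

lemma phi_add (p : ℕ) (r : ZMod p) (x y : GaussianInt) :
    phi p r (x + y) = phi p r x + phi p r y := by
  simp only [phi, Zsqrtd.re_add, Zsqrtd.im_add]; push_cast; ring

lemma phi_smul (p : ℕ) (r : ZMod p) (t : ℤ) (x : GaussianInt) :
    phi p r ((t : GaussianInt) * x) = (t : ZMod p) * phi p r x := by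
  simp [phi, Zsqrtd.re_mul, Zsqrtd.im_mul, Zsqrtd.re_intCast, Zsqrtd.im_intCast]; ring

lemma phi_norm {p : ℕ} {r : ZMod p} (hr : r ^ 2 = -1) {z : GaussianInt} (h : phi p r z = 0) :
    (p : ℤ) ∣ z.norm := by
  rw [← ZMod.intCast_zmod_eq_zero_iff_dvd, Zsqrtd.norm_def]
  unfold phi at h
  have h' : (z.re : ZMod p) = -(r * (z.im : ZMod p)) := eq_neg_of_add_eq_zero_left h
  push_cast
  linear_combination ((z.re : ZMod p) - r * (z.im : ZMod p)) * h' + ((z.im : ZMod p) ^ 2) * hr

lemma gauss_prime_norm_eq {p : ℕ} (hp : p.Prime) (hp4 : p % 4 = 1) {z : GaussianInt}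
    (hz : Prime z) (hdvd : (p : ℤ) ∣ z.norm) : z.norm.natAbs = p := by
  haveI : Fact p.Prime := ⟨hp⟩
  obtain ⟨x, y, hxy⟩ := Nat.Prime.sq_add_sq (p := p) (by omega)
  set π : GaussianInt := ⟨x, y⟩ with hπdef
  have hπ : π.norm.natAbs = p := by
    have : π.norm = (p:ℤ) := by
      rw [Zsqrtd.norm_def, ← hxy]; push_cast; simp [π]; ring
    rw [this]; simp
  have hunit : ∀ c : GaussianInt, IsUnit c → c.norm.natAbs = 1 :=
    fun c hc => Zsqrtd.norm_eq_one_iff.2 hc
  have hπirr : Irreducible π := by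
    refine ⟨fun h => hp.one_lt.ne' (hπ ▸ hunit _ h), fun a b hab => ?_⟩
    have : a.norm.natAbs * b.norm.natAbs = p := by
      rw [← Int.natAbs_mul, ← Zsqrtd.norm_mul, ← hab, hπ]
    rcases hp.eq_one_or_self_of_dvd _ (Dvd.intro _ this) with h | h
    · exact Or.inl (Zsqrtd.norm_eq_one_iff.1 h)
    · refine Or.inr (Zsqrtd.norm_eq_one_iff.1 ?_)
      rw [h] at this
      exact (Nat.mul_eq_left hp.ne_zero).1 this
  have hπp : π ∣ z * star z := by
    obtain ⟨k, hk⟩ := hdvd
    have h1 : ((z.norm : ℤ) : GaussianInt) = z * star z := Zsqrtd.norm_eq_mul_conj z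
    have h2 : ((π.norm : ℤ) : GaussianInt) = π * star π := Zsqrtd.norm_eq_mul_conj π
    have h3 : π.norm = (p:ℤ) := by
      rw [← hπ]; exact (Int.natAbs_of_nonneg (GaussianInt.norm_nonneg π)).symm
    rw [← h1, hk, ← h3, Int.cast_mul, h2]
    exact Dvd.intro _ (mul_assoc _ _ _).symm
  have key : ∀ w : GaussianInt, Irreducible w → π ∣ w → w.norm.natAbs = p := by
    intro w hw hd
    obtain ⟨c, rfl⟩ := hd
    rcases hw.isUnit_or_isUnit rfl with h | h
    · exact absurd h hπirr.not_isUnit
    · rw [Zsqrtd.norm_mul, Int.natAbs_mul, hπ, hunit c h, mul_one]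
  rcases hπirr.prime.dvd_or_dvd hπp with h | h
  · exact key z hz.irreducible h
  · have hs : Irreducible (star z) := by
      have := hz.irreducible.map (starRingAut (R := GaussianInt))
      exact this
    have := key _ hs h
    rwa [Zsqrtd.norm_conj] at this

lemma few_divisors {K : ℕ} (hK : 2 ≤ K) {P : Finset ℕ} (hP : ∀ p ∈ P, p.Prime ∧ K < p)
    {m : ℕ} (hm0 : 0 < m) (hm : m ≤ K ^ 4) :
    (P.filter (fun p => p ∣ m)).card ≤ 4 := by
  set T := P.filter (fun p => p ∣ m)
  have h1 : ∏ p ∈ T, p ∣ m :=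
    Finset.prod_primes_dvd m (fun p hp => (hP p (mem_filter.1 hp).1).1.prime)
      (fun p hp => (mem_filter.1 hp).2)
  have h2 : K ^ T.card ≤ ∏ p ∈ T, p :=
    Finset.pow_card_le_prod _ _ _ fun p hp => (hP p (mem_filter.1 hp).1).2.le
  exact (Nat.pow_le_pow_iff_right (by omega)).1 (h2.trans ((Nat.le_of_dvd hm0 h1).trans hm))

lemma card_image_collisions {β : Type*} [DecidableEq β] (K : ℕ) (f : ℕ → β) :
    K ≤ ((range K).image f).card
      + (((range K) ×ˢ (range K)).filter (fun ij => ij.1 < ij.2 ∧ f ij.1 = f ij.2)).card := by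
  classical
  set first := (range K).filter (fun j => ∀ i < j, f i ≠ f j)
  set late := (range K).filter (fun j => ¬ ∀ i < j, f i ≠ f j)
  have h0 : first.card + late.card = K := by
    rw [card_filter_add_card_filter_not, card_range]
  have h1 : first.card ≤ ((range K).image f).card := by
    refine card_le_card_of_injOn f (fun j hj => mem_image_of_mem f (mem_filter.1 hj).1) ?_
    intro a ha b hb hab
    rcases Nat.lt_trichotomy a b with h | h | h
    · exact absurd hab ((mem_filter.1 hb).2 a h)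
    · exact h
    · exact absurd hab.symm ((mem_filter.1 ha).2 b h)
  have h2 : late.card ≤
      (((range K) ×ˢ (range K)).filter (fun ij => ij.1 < ij.2 ∧ f ij.1 = f ij.2)).card := by
    refine card_le_card_of_surjOn Prod.snd ?_
    intro j hj
    obtain ⟨hjK, hne⟩ := mem_filter.1 hj
    push Not at hne
    obtain ⟨i, hij, he⟩ := hne
    refine ⟨(i, j), ?_, rfl⟩
    simp only [coe_filter, mem_product, mem_range, Set.mem_ofPred_eq] at hjK ⊢
    exact ⟨⟨hij.trans hjK, hjK⟩, hij, he⟩
  omega

lemma exists_root {p : ℕ} (hp : p.Prime) (hp4 : p % 4 = 1) {u : GaussianInt}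
    (hu : IsCoprime u.re u.im) : ∃ r : ZMod p, r ^ 2 = -1 ∧ phi p r u ≠ 0 := by
  haveI : Fact p.Prime := ⟨hp⟩
  obtain ⟨c, hc⟩ := (ZMod.exists_sq_eq_neg_one_iff (p := p)).2 (by omega)
  by_cases h : phi p c u = 0
  · refine ⟨-c, by rw [neg_sq, sq]; exact hc.symm, fun h' => ?_⟩
    unfold phi at h h'
    have h2 : (2 : ZMod p) ≠ 0 := by
      intro he
      have : ((2:ℕ) : ZMod p) = 0 := by exact_mod_cast he
      rw [ZMod.natCast_eq_zero_iff, Nat.dvd_prime Nat.prime_two] at this
      have := hp.two_le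
      omega
    have hc0 : c ≠ 0 := by rintro rfl; simp at hc
    have hi : (u.im : ZMod p) = 0 := by
      have : (2 : ZMod p) * (c * (u.im : ZMod p)) = 0 := by linear_combination h - h'
      simpa [h2, hc0] using this
    have hre : (u.re : ZMod p) = 0 := by simpa [hi] using h
    obtain ⟨a, b, hab⟩ := hu
    have := congrArg (fun x : ℤ => (x : ZMod p)) hab
    push_cast at this
    rw [hre, hi] at this
    simp at this
  · exact ⟨c, by rw [sq]; exact hc.symm, h⟩

theorem row_bound (D : ℕ) : ∃ A E K0 : ℕ, 1 ≤ A ∧ 1 ≤ E ∧ ∀ K, K0 ≤ K →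
    ∀ (u z0 : GaussianInt), IsCoprime u.re u.im → ∀ (a : ℤ) (N : ℕ),
      2 * K ^ (E * K) ≤ N → ∀ S : Finset ℤ, (∀ t ∈ S, a ≤ t ∧ t < a + N) →
        (∀ t ∈ S, ShortPath D (K ^ A) K (z0 + (t : GaussianInt) * u)) →
        (S.card : ℝ) ≤ 2 * N / 16 ^ K := by
  classical
  set s : ℕ := (2 * D + 1) ^ 2 with hs
  set γ : ℕ := 16 * s with hγ
  have hs1 : 1 ≤ s := Nat.one_le_pow _ _ (by omega)
  have hγ1 : 1 ≤ γ := by omega
  obtain ⟨A, K1, hA, hK1, hsum⟩ := recip_sum_large (5 * γ + 4)
  refine ⟨A, 4 * A * γ, max K1 (2 * D ^ 2 + 2), hA,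
    Nat.one_le_iff_ne_zero.2 (by positivity), ?_⟩
  intro K hK u z0 hu a N hN S hS hpath
  have hK1' : K1 ≤ K := le_trans (le_max_left _ _) hK
  have hKD : 2 * D ^ 2 + 2 ≤ K := le_trans (le_max_right _ _) hK
  have hK2 : 2 ≤ K := by omega
  set P := pset K A
  have hPmem : ∀ p ∈ P, p.Prime ∧ K < p ∧ p ≤ K ^ A ∧ p % 4 = 1 := by
    intro p hp
    simp only [P, pset, mem_filter, mem_Ioc] at hp
    exact ⟨hp.2.1, hp.1.1, hp.1.2, hp.2.2⟩
  have hroot : ∀ p, ∃ r : ZMod p, p ∈ P → r ^ 2 = -1 ∧ phi p r u ≠ 0 := by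
    intro p
    by_cases hp : p ∈ P
    · obtain ⟨r, hr⟩ := exists_root (hPmem p hp).1 (hPmem p hp).2.2.2 hu
      exact ⟨r, fun _ => hr⟩
    · exact ⟨0, fun h => absurd h hp⟩
  choose r hr using hroot
  -- step sequences
  let box : Finset GaussianInt :=
    ((Icc (-(D:ℤ)) D) ×ˢ (Icc (-(D:ℤ)) D)).image (fun ab => (⟨ab.1, ab.2⟩ : GaussianInt))
  have hbox : box.card ≤ s := by
    refine card_image_le.trans ?_
    simp only [card_product, Int.card_Icc, hs]
    have : ((D:ℤ) + 1 - -(D:ℤ)).toNat = 2 * D + 1 := by omega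
    rw [this, sq]
  let ext : (Fin K → GaussianInt) → ℕ → GaussianInt :=
    fun d i => if h : i < K then d ⟨i, h⟩ else 0
  let q : (Fin K → GaussianInt) → ℕ → GaussianInt := fun d j => ∑ i ∈ range j, ext d i
  let pats := (Fintype.piFinset fun _ : Fin K => box).filter
    (fun d => ∀ i < K, ∀ j < K, q d i = q d j → i = j)
  let good : (Fin K → GaussianInt) → Finset ℤ := fun d => S.filter (fun t => ∀ p ∈ P, ∀ j < K,
    phi p (r p) (z0 + (t : GaussianInt) * u + q d j) ≠ 0)
  have hcover : S ⊆ pats.biUnion good := by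
    intro t ht
    obtain ⟨y, hy0, hyp, hyinj, hystep⟩ := hpath t ht
    let d : Fin K → GaussianInt := fun i => if (i:ℕ) + 1 < K then y (i + 1) - y i else 0
    have hq : ∀ j, j < K → q d j = y j - y 0 := by
      intro j
      induction j with
      | zero => intro _; simp [q]
      | succ j ih =>
        intro hj
        have hj' : j < K := by omega
        simp only [q, sum_range_succ] at ih ⊢
        rw [ih hj']
        simp only [ext, d, dif_pos hj', if_pos hj]
        ring
    refine mem_biUnion.2 ⟨d, mem_filter.2 ⟨Fintype.mem_piFinset.2 fun i => ?_, ?_⟩,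
      mem_filter.2 ⟨ht, ?_⟩⟩
    · simp only [box, mem_image, mem_product, mem_Icc, d]
      split
      · rename_i h
        obtain ⟨h1, h2⟩ := hystep i h
        rw [abs_le] at h1 h2
        exact ⟨((y (i + 1)).re - (y i).re, (y (i + 1)).im - (y i).im),
          ⟨h1, h2⟩, rfl⟩
      · exact ⟨(0, 0), ⟨⟨by omega, by omega⟩, ⟨by omega, by omega⟩⟩, rfl⟩
    · intro i hi j hj h
      rw [hq i hi, hq j hj, sub_left_inj] at h
      exact hyinj i hi j hj h
    · intro p hp j hj h0
      rw [hq j hj, hy0] at h0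
      have h0' : phi p (r p) (y j) = 0 := by
        rwa [add_sub_cancel] at h0
      have := gauss_prime_norm_eq (hPmem p hp).1 (hPmem p hp).2.2.2 (hyp j hj).1
        (phi_norm (hr p hp).1 h0')
      have := (hyp j hj).2
      have := (hPmem p hp).2.2.1
      omega
  -- bound for each pattern
  have hone : ∀ d ∈ pats, ((good d).card : ℝ) ≤ 2 * N / 4 ^ (γ * K) := by
    intro d hd
    obtain ⟨hdbox, hdinj⟩ := mem_filter.1 hd
    have hext : ∀ i, |(ext d i).re| ≤ D ∧ |(ext d i).im| ≤ D := by
      intro i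
      simp only [ext]
      split
      · have := Fintype.mem_piFinset.1 hdbox ⟨i, by assumption⟩
        simp only [box, mem_image, mem_product, mem_Icc] at this
        obtain ⟨ab, ⟨h1, h2⟩, he⟩ := this
        rw [← he, abs_le, abs_le]
        exact ⟨h1, h2⟩
      · simp
    let Ω : ∀ p : ℕ, Finset (ZMod p) := fun p =>
      if hp : p.Prime then
        haveI : Fact p.Prime := ⟨hp⟩
        (range K).image (fun j => -(phi p (r p) (z0 + q d j)) / phi p (r p) u)
      else ∅
    let pairs := ((range K) ×ˢ (range K)).filter (fun ij => ij.1 < ij.2)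
    have hcol : ∀ p ∈ P, (K:ℝ) ≤ ((Ω p).card : ℝ)
        + ((pairs.filter (fun ij => p ∣ (q d ij.2 - q d ij.1).norm.natAbs)).card : ℝ) := by
      intro p hp
      haveI : Fact p.Prime := ⟨(hPmem p hp).1⟩
      have h := card_image_collisions K (fun j => -(phi p (r p) (z0 + q d j)) / phi p (r p) u)
      have hsub : ((range K ×ˢ range K).filter (fun ij => ij.1 < ij.2 ∧
          -(phi p (r p) (z0 + q d ij.1)) / phi p (r p) u
            = -(phi p (r p) (z0 + q d ij.2)) / phi p (r p) u)) ⊆
          pairs.filter (fun ij => p ∣ (q d ij.2 - q d ij.1).norm.natAbs) := by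
        intro ij hij
        simp only [pairs, mem_filter] at hij ⊢
        refine ⟨⟨hij.1, hij.2.1⟩, ?_⟩
        have he := hij.2.2
        rw [div_left_inj' (hr p hp).2, neg_inj, phi_add, phi_add, add_right_inj] at he
        have : phi p (r p) (q d ij.2 - q d ij.1) = 0 := by
          have := phi_add p (r p) (q d ij.2 - q d ij.1) (q d ij.1)
          rw [sub_add_cancel] at this
          linear_combination -this - he
        exact Int.natCast_dvd.1 (phi_norm (hr p hp).1 this)
      have h2 := card_le_card hsub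
      have hΩ : Ω p = (range K).image (fun j => -(phi p (r p) (z0 + q d j)) / phi p (r p) u) :=
        dif_pos (hPmem p hp).1
      rw [hΩ]
      exact_mod_cast le_trans h (by omega)
    have hpairs : ∀ ij ∈ pairs,
        (P.filter (fun p => p ∣ (q d ij.2 - q d ij.1).norm.natAbs)).card ≤ 4 := by
      intro ij hij
      simp only [pairs, mem_filter, mem_product, mem_range] at hij
      obtain ⟨⟨hi, hj⟩, hlt⟩ := hij
      set e := q d ij.2 - q d ij.1 with he
      have hsumIco : e = ∑ i ∈ Ico ij.1 ij.2, ext d i := by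
        rw [he, sum_Ico_eq_sub _ hlt.le]
      have hre : ∀ T : Finset ℕ, |(∑ i ∈ T, ext d i).re| ≤ D * (T.card : ℤ) ∧
          |(∑ i ∈ T, ext d i).im| ≤ D * (T.card : ℤ) := by
        intro T
        induction T using Finset.induction_on with
        | empty => simp
        | insert i T hi ih =>
          rw [sum_insert hi, card_insert_of_notMem hi, Zsqrtd.re_add, Zsqrtd.im_add]
          have := hext i
          push_cast
          constructor
          · linarith [abs_add_le (ext d i).re (∑ i ∈ T, ext d i).re]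
          · linarith [abs_add_le (ext d i).im (∑ i ∈ T, ext d i).im]
      obtain ⟨h1, h2⟩ := hre (Ico ij.1 ij.2)
      rw [← hsumIco, Nat.card_Ico] at h1 h2
      have hne : e ≠ 0 := by
        rw [he, sub_ne_zero]
        intro h
        exact hlt.ne (hdinj _ hj _ hi h).symm
      have hpos : 0 < e.norm := GaussianInt.norm_pos.2 hne
      refine few_divisors hK2 (fun p hp => ⟨(hPmem p hp).1, (hPmem p hp).2.1⟩)
        (Int.natAbs_pos.2 hpos.ne') ?_
      have hb : (D:ℤ) * ((ij.2 - ij.1 : ℕ) : ℤ) ≤ (D:ℤ) * K :=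
        mul_le_mul_of_nonneg_left (by omega) (by omega)
      have hn : e.norm ≤ 2 * ((D:ℤ) * K) ^ 2 := by
        rw [Zsqrtd.norm_def]
        have a1 : |e.re| ≤ (D:ℤ) * K := h1.trans hb
        have a2 : |e.im| ≤ (D:ℤ) * K := h2.trans hb
        have := sq_le_sq' (abs_le.1 a1).1 (abs_le.1 a1).2
        have := sq_le_sq' (abs_le.1 a2).1 (abs_le.1 a2).2
        nlinarith
      have : 2 * (D * K) ^ 2 ≤ K ^ 4 := by
        calc 2 * (D * K) ^ 2 = (2 * D ^ 2) * K ^ 2 := by ring
          _ ≤ K * K ^ 2 := Nat.mul_le_mul_right _ (by omega)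
          _ = K ^ 3 := by ring
          _ ≤ K ^ 4 := Nat.pow_le_pow_right (by omega) (by omega)
      zify at this
      rw [← Int.ofNat_le, Int.natAbs_of_nonneg hpos.le]
      push_cast
      linarith
    have hloss : ∑ p ∈ P,
        ((pairs.filter (fun ij => p ∣ (q d ij.2 - q d ij.1).norm.natAbs)).card : ℝ) / p
        ≤ 4 * K := by
      calc _ ≤ ∑ p ∈ P,
            ((pairs.filter (fun ij => p ∣ (q d ij.2 - q d ij.1).norm.natAbs)).card : ℝ) / K := by
            refine sum_le_sum fun p hp => ?_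
            refine div_le_div_of_nonneg_left (Nat.cast_nonneg _)
              (by exact_mod_cast (by omega : 0 < K)) ?_
            exact_mod_cast (hPmem p hp).2.1.le
        _ = ((∑ ij ∈ pairs, (P.filter
              (fun p => p ∣ (q d ij.2 - q d ij.1).norm.natAbs)).card : ℕ) : ℝ) / K := by
            rw [← sum_div, ← Nat.cast_sum]
            simp only [card_filter]
            rw [Finset.sum_comm]
        _ ≤ ((4 * (K * K) : ℕ) : ℝ) / K := by
            refine div_le_div_of_nonneg_right ?_ (Nat.cast_nonneg _)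
            refine Nat.cast_le.2 ((sum_le_card_nsmul _ _ 4 hpairs).trans ?_)
            rw [smul_eq_mul, mul_comm]
            refine Nat.mul_le_mul_left _ ((card_le_card (filter_subset _ _)).trans ?_)
            simp
        _ = 4 * K := by
            have : (K:ℝ) ≠ 0 := by exact_mod_cast (by omega : K ≠ 0)
            push_cast; field_simp
    have htot : (5 * (γ * K : ℕ) : ℝ) ≤ ∑ p ∈ P, ((Ω p).card : ℝ) / p := by
      have h1 : ∑ p ∈ P, (K:ℝ) / p ≤ (∑ p ∈ P, ((Ω p).card : ℝ) / p) + 4 * K := by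
        refine le_trans ?_ (add_le_add le_rfl hloss)
        rw [← sum_add_distrib]
        refine sum_le_sum fun p hp => ?_
        rw [← add_div]
        exact div_le_div_of_nonneg_right (hcol p hp) (Nat.cast_nonneg _)
      have h2 : (K:ℝ) * (5 * γ + 4 : ℕ) ≤ ∑ p ∈ P, (K:ℝ) / p := by
        refine (mul_le_mul_of_nonneg_left (hsum K hK1') (Nat.cast_nonneg _)).trans_eq ?_
        rw [mul_sum]; exact sum_congr rfl fun p _ => by ring
      push_cast at h2 ⊢
      linarith
    obtain ⟨m, hm⟩ : ∃ m, γ * K = m + 1 := ⟨γ * K - 1, by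
      have : 0 < γ * K := by positivity
      omega⟩
    rw [hm] at htot
    obtain ⟨lab, hlab⟩ := exists_groups (fun p => ((Ω p).card : ℝ) / p) m P
      (fun p hp => by
        haveI : NeZero p := ⟨(hPmem p hp).1.ne_zero⟩
        rw [div_le_one (by exact_mod_cast (hPmem p hp).1.pos)]
        exact_mod_cast (by simpa using Finset.card_le_univ (Ω p) : (Ω p).card ≤ p))
      (fun p _ => by positivity) htot
    rw [hm]
    refine sieve_bound P (fun p hp => (hPmem p hp).1) (K ^ A) (fun p hp => (hPmem p hp).2.2.1)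
      (m + 1) lab Ω (good d) a N (fun t ht => hS t (mem_filter.1 ht).1) ?_ 4 (by norm_num) hlab ?_
    · intro t ht p hp hmem
      haveI : Fact p.Prime := ⟨(hPmem p hp).1⟩
      have hΩ : Ω p = (range K).image (fun j => -(phi p (r p) (z0 + q d j)) / phi p (r p) u) :=
        dif_pos (hPmem p hp).1
      rw [hΩ, mem_image] at hmem
      obtain ⟨j, hj, he⟩ := hmem
      refine (mem_filter.1 ht).2 p hp j (mem_range.1 hj) ?_
      rw [div_eq_iff (hr p hp).2] at he
      rw [phi_add, phi_add, phi_smul]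
      rw [phi_add] at he
      linear_combination -he
    · refine le_trans (le_of_eq ?_) hN
      rw [← pow_mul, ← hm]; congr 2; ring
  -- conclusion
  have hpats : (pats.card : ℝ) ≤ (s:ℝ) ^ K := by
    have : pats.card ≤ s ^ K := by
      refine (card_le_card (filter_subset _ _)).trans ?_
      rw [Fintype.card_piFinset, prod_const, card_univ, Fintype.card_fin]
      exact Nat.pow_le_pow_left hbox K
    exact_mod_cast this
  have hs4 : (16:ℝ) * s ≤ 4 ^ γ := by
    have := Nat.lt_pow_self (n := γ) (show 1 < 4 by norm_num)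
    exact_mod_cast (by omega : 16 * s ≤ 4 ^ γ)
  calc (S.card:ℝ) ≤ ((pats.biUnion good).card : ℝ) := by exact_mod_cast card_le_card hcover
    _ ≤ ∑ d ∈ pats, ((good d).card : ℝ) := by exact_mod_cast card_biUnion_le
    _ ≤ ∑ d ∈ pats, 2 * (N:ℝ) / 4 ^ (γ * K) := sum_le_sum hone
    _ = (pats.card : ℝ) * (2 * (N:ℝ) / 4 ^ (γ * K)) := by rw [sum_const, nsmul_eq_mul]
    _ ≤ (s:ℝ) ^ K * (2 * (N:ℝ) / 4 ^ (γ * K)) := by gcongr
    _ ≤ 2 * N / 16 ^ K := by
        rw [pow_mul, mul_div_assoc', div_le_div_iff₀ (by positivity) (by positivity)]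
        have := pow_le_pow_left₀ (by positivity) hs4 K
        rw [mul_pow] at this
        nlinarith [mul_le_mul_of_nonneg_left this (by positivity : (0:ℝ) ≤ 2 * N)]

end Vale.Agent.P015
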