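import Mathlib
import Vale.Agent.P015.Pattern

/-
Gaussian prime paths with bounded steps cannot run along a narrow strip of any slope.
-/

namespace Vale.Agent.P015

open Finset

open ComplexConjugate

noncomputable local instance : DecidableEq GaussianInt := Classical.decEq _

/-- primality and step condition on `0..m` -/
def IsPath (D : ℝ) (z : ℕ → GaussianInt) (m : ℕ) : Prop :=
  (∀ i ≤ m, Prime (z i)) ∧ ∀ i < m, ‖((z (i + 1) : ℂ)) - (z i : ℂ)‖ ≤ D

/-- all of `0..m` within `h` of the line through `a` in direction `v` -/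
def InTube (a v : ℂ) (h : ℝ) (z : ℕ → GaussianInt) (m : ℕ) : Prop :=
  ∀ i ≤ m, |(((z i : ℂ) - a) * conj v).im| ≤ h

lemma dist_le_length (z : ℕ → ℂ) (m : ℕ) : ‖z m - z 0‖ ≤ ∑ i ∈ range m, ‖z (i + 1) - z i‖ := by
  induction m with
  | zero => simp
  | succ m ih =>
    rw [sum_range_succ]
    have := norm_sub_le_norm_sub_add_norm_sub (z (m + 1)) (z m) (z 0)
    linarith

lemma gre (x : GaussianInt) : ((x : ℂ)).re = (x.re : ℝ) := (GaussianInt.intCast_re x).symm

lemma gim (x : GaussianInt) : ((x : ℂ)).im = (x.im : ℝ) := (GaussianInt.intCast_im x).symm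

lemma coord_step {D : ℝ} {x y : GaussianInt} (h : ‖(x : ℂ) - (y : ℂ)‖ ≤ D) :
    |x.re - y.re| ≤ (⌈D⌉₊ : ℤ) ∧ |x.im - y.im| ≤ (⌈D⌉₊ : ℤ) := by
  have hD : D ≤ ((⌈D⌉₊ : ℕ) : ℝ) := Nat.le_ceil D
  have h1 := (Complex.abs_re_le_norm ((x : ℂ) - (y : ℂ))).trans (h.trans hD)
  have h2 := (Complex.abs_im_le_norm ((x : ℂ) - (y : ℂ))).trans (h.trans hD)
  rw [Complex.sub_re, gre, gre] at h1
  rw [Complex.sub_im, gim, gim] at h2
  constructor
  · exact_mod_cast h1
  · exact_mod_cast h2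

lemma exists_direction (v : ℂ) (hv : ‖v‖ = 1) (U : ℕ) (hU : 1 ≤ U) :
    ∃ u : GaussianInt, IsCoprime u.re u.im ∧ 1 ≤ ‖(u : ℂ)‖ ∧ ‖(u : ℂ)‖ ≤ 3 * U ∧
      |(u.re : ℝ) * v.im - (u.im : ℝ) * v.re| ≤ 1 / U := by
  have hn : v.re ^ 2 + v.im ^ 2 = 1 := by
    have := Complex.normSq_eq_norm_sq v
    rw [hv, Complex.normSq_apply] at this
    nlinarith
  have key : ∀ c s : ℝ, c ^ 2 + s ^ 2 = 1 → |s| ≤ |c| →
      ∃ k j : ℤ, IsCoprime k j ∧ 0 < k ∧ k ≤ U ∧ |j| ≤ 2 * (U:ℤ) ∧
        |(k:ℝ) * s - (j:ℝ) * c| ≤ 1 / U := by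
    intro c s hcs hsc
    have hc : c ≠ 0 := by
      rintro rfl
      simp at hsc; subst hsc; norm_num at hcs
    obtain ⟨q, hq, hqU⟩ := Real.exists_rat_abs_sub_le_and_den_le (s / c) (n := U) (by omega)
    have hqpos : (0:ℝ) < q.den := by exact_mod_cast q.den_pos
    refine ⟨q.den, q.num, ?_, by exact_mod_cast q.den_pos, by exact_mod_cast hqU, ?_, ?_⟩
    · rw [Int.isCoprime_iff_nat_coprime, Int.natAbs_natCast]
      exact q.reduced.symm
    · have hξ : |s / c| ≤ 1 := by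
        rw [abs_div, div_le_one (abs_pos.2 hc)]; exact hsc
      have h1 : 1 / (((U:ℝ) + 1) * q.den) * q.den ≤ 1 := by
        rw [div_mul_eq_mul_div, one_mul, mul_comm, ← div_div, div_self hqpos.ne']
        rw [div_le_one (by positivity)]
        linarith [(Nat.cast_nonneg U : (0:ℝ) ≤ U)]
      have hqr : (q:ℝ) = (q.num:ℝ) / q.den := by exact_mod_cast (Rat.num_div_den q).symm
      have h2 : |(q:ℝ)| * q.den ≤ (|s / c| + 1 / (((U:ℝ) + 1) * q.den)) * q.den := by
        refine mul_le_mul_of_nonneg_right ?_ hqpos.le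
        have := abs_add_le ((q:ℝ) - s / c) (s / c)
        rw [sub_add_cancel, abs_sub_comm] at this
        linarith
      have h3 : |(q.num : ℝ)| ≤ (q.den:ℝ) + 1 := by
        rw [hqr, abs_div, abs_of_pos hqpos, div_mul_cancel₀ _ hqpos.ne'] at h2
        nlinarith [mul_le_mul_of_nonneg_right hξ hqpos.le]
      have h4 : |q.num| ≤ (q.den:ℤ) + 1 := by exact_mod_cast h3
      omega
    · have hqr : (q:ℝ) = (q.num:ℝ) / q.den := by exact_mod_cast (Rat.num_div_den q).symm
      have e : (((q.den:ℤ) : ℝ)) * s - (q.num:ℝ) * c = (q.den:ℝ) * c * (s / c - q) := by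
        rw [hqr]; push_cast; field_simp
      rw [e, abs_mul, abs_mul, abs_of_pos hqpos]
      have hc1 : |c| ≤ 1 := by
        rw [abs_le]; constructor <;> nlinarith [sq_nonneg s]
      calc (q.den:ℝ) * |c| * |s / c - q| ≤ (q.den:ℝ) * 1 * (1 / (((U:ℝ) + 1) * q.den)) := by
            gcongr
        _ = 1 / ((U:ℝ) + 1) := by field_simp
        _ ≤ 1 / U := by
            gcongr
            linarith
  have hsize : ∀ u : GaussianInt, (1 ≤ |u.re| ∨ 1 ≤ |u.im|) →
      |u.re| + |u.im| ≤ 3 * (U:ℤ) → 1 ≤ ‖(u : ℂ)‖ ∧ ‖(u : ℂ)‖ ≤ 3 * U := by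
    intro u h1 h2
    have a1 := Complex.abs_re_le_norm (u : ℂ)
    have a2 := Complex.abs_im_le_norm (u : ℂ)
    have a3 := Complex.norm_le_abs_re_add_abs_im (u : ℂ)
    rw [gre] at a1 a3
    rw [gim] at a2 a3
    refine ⟨?_, a3.trans (by exact_mod_cast h2)⟩
    rcases h1 with h | h
    · exact le_trans (by exact_mod_cast h) a1
    · exact le_trans (by exact_mod_cast h) a2
  rcases le_total |v.im| |v.re| with hle | hle
  · obtain ⟨k, j, hco, hk, hkU, hjU, hb⟩ := key v.re v.im hn hle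
    obtain ⟨h1, h2⟩ := hsize ⟨k, j⟩ (Or.inl (by dsimp only; rw [abs_of_pos hk]; omega))
      (by dsimp only; rw [abs_of_pos hk]; omega)
    exact ⟨⟨k, j⟩, hco, h1, h2, hb⟩
  · obtain ⟨k, j, hco, hk, hkU, hjU, hb⟩ := key v.im v.re (by linarith) hle
    obtain ⟨h1, h2⟩ := hsize ⟨j, k⟩ (Or.inr (by dsimp only; rw [abs_of_pos hk]; omega))
      (by dsimp only; rw [abs_of_pos hk]; omega)
    refine ⟨⟨j, k⟩, hco.symm, h1, h2, ?_⟩
    rw [abs_sub_comm]; exact hb

/-- Points of one path within a strip and a ball: shortest such path reaching distance `r`. -/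
lemma exists_simple_exit {D : ℝ} {a v : ℂ} {h r : ℝ} {z : ℕ → GaussianInt} {m : ℕ}
    (hp : IsPath D z m) (ht : InTube a v h z m) (hfar : r ≤ ‖(z m : ℂ) - (z 0 : ℂ)‖) :
    ∃ y : ℕ → GaussianInt, ∃ M : ℕ, y 0 = z 0 ∧ IsPath D y M ∧ InTube a v h y M ∧
      r ≤ ‖(y M : ℂ) - (y 0 : ℂ)‖ ∧ (∀ i < M, ‖(y i : ℂ) - (y 0 : ℂ)‖ < r) ∧
      (∀ i ≤ M, ∀ j ≤ M, y i = y j → i = j) := by
  classical
  let Q : ℕ → Prop := fun M => ∃ y : ℕ → GaussianInt, y 0 = z 0 ∧ IsPath D y M ∧
    InTube a v h y M ∧ r ≤ ‖(y M : ℂ) - (y 0 : ℂ)‖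
  have hex : ∃ M, Q M := ⟨m, z, rfl, hp, ht, hfar⟩
  obtain ⟨y, hy0, hyp, hyt, hyf⟩ := Nat.find_spec hex
  refine ⟨y, Nat.find hex, hy0, hyp, hyt, hyf, ?_, ?_⟩
  · intro i hi
    by_contra hcon
    push Not at hcon
    exact Nat.find_min hex hi ⟨y, hy0, ⟨fun k hk => hyp.1 k (by omega),
      fun k hk => hyp.2 k (by omega)⟩, fun k hk => hyt k (by omega), hcon⟩
  · intro i hi j hj he
    by_contra hne
    wlog hij : i < j generalizing i j
    · exact this j hj i hi he.symm (Ne.symm hne) (by omega)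
    let y' : ℕ → GaussianInt := fun k => if k ≤ i then y k else y (k + (j - i))
    set M := Nat.find hex
    have hlast : y' (M - (j - i)) = y M := by
      simp only [y']
      split
      · have : j = M := by omega
        rw [show M - (j - i) = i by omega, he, this]
      · congr 1; omega
    refine Nat.find_min hex (m := M - (j - i)) (by omega) ⟨y', ?_, ⟨?_, ?_⟩, ?_, ?_⟩
    · simp [y', hy0]
    · intro k hk
      simp only [y']
      split
      · exact hyp.1 k (by omega)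
      · exact hyp.1 _ (by omega)
    · intro k hk
      simp only [y']
      by_cases h1 : k + 1 ≤ i
      · rw [if_pos h1, if_pos (by omega : k ≤ i)]
        exact hyp.2 k (by omega)
      · rw [if_neg h1]
        by_cases h2 : k ≤ i
        · have hki : k = i := by omega
          subst hki
          rw [if_pos h2, he, show k + 1 + (j - k) = j + 1 by omega]
          exact hyp.2 j (by omega)
        · rw [if_neg h2, show k + 1 + (j - i) = k + (j - i) + 1 by omega]
          exact hyp.2 _ (by omega)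
    · intro k hk
      simp only [y']
      split
      · exact hyt k (by omega)
      · exact hyt _ (by omega)
    · rw [hlast]
      simp only [y', Nat.zero_le, if_true]
      exact hyf

lemma small_norm_card (Pm : ℕ) (T : Finset GaussianInt) (hT : ∀ x ∈ T, x.norm.natAbs ≤ Pm) :
    T.card ≤ (2 * Pm + 1) ^ 2 := by
  have hsub : T ⊆ ((Icc (-(Pm:ℤ)) Pm) ×ˢ (Icc (-(Pm:ℤ)) Pm)).image
      (fun ab => (⟨ab.1, ab.2⟩ : GaussianInt)) := by
    intro x hx
    have h := hT x hx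
    have hn : x.norm ≤ Pm := by
      rw [← Int.natAbs_of_nonneg (GaussianInt.norm_nonneg x)]
      exact_mod_cast h
    rw [Zsqrtd.norm_def] at hn
    have e1 : |x.re| ≤ x.re * x.re := by
      rw [← abs_mul_abs_self x.re]
      rcases eq_or_ne x.re 0 with h0 | h0
      · simp [h0]
      · exact le_mul_of_one_le_left (abs_nonneg _) (Int.one_le_abs h0)
    have e2 : |x.im| ≤ x.im * x.im := by
      rw [← abs_mul_abs_self x.im]
      rcases eq_or_ne x.im 0 with h0 | h0
      · simp [h0]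
      · exact le_mul_of_one_le_left (abs_nonneg _) (Int.one_le_abs h0)
    have b1 := abs_le.1 (show |x.re| ≤ (Pm:ℤ) by nlinarith [mul_self_nonneg x.im])
    have b2 := abs_le.1 (show |x.im| ≤ (Pm:ℤ) by nlinarith [mul_self_nonneg x.re])
    simp only [mem_image, mem_product, mem_Icc]
    exact ⟨(x.re, x.im), ⟨b1, b2⟩, rfl⟩
  refine (card_le_card hsub).trans (card_image_le.trans (le_of_eq ?_))
  simp only [card_product, Int.card_Icc]
  rw [show ((Pm:ℤ) + 1 - -(Pm:ℤ)).toNat = 2 * Pm + 1 by omega, sq]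

theorem crossing_bound (D : ℝ) (hD : 0 < D) : ∃ F K0 : ℕ, 1 ≤ F ∧ 3 ≤ K0 ∧ ∀ K, K0 ≤ K →
    ∀ (a v : ℂ), ‖v‖ = 1 → ∀ (h : ℝ), h ≤ 2 ^ K → ∀ (z : ℕ → GaussianInt) (m : ℕ),
      IsPath D z m → InTube a v h z m → ‖(z m : ℂ) - (z 0 : ℂ)‖ < (K:ℝ) ^ (F * K) := by
  classical
  obtain ⟨A, E, K1, hA, hE, hrow⟩ := row_bound ⌈D⌉₊
  obtain ⟨K2, hK2⟩ : ∃ K2 : ℕ, ∀ K, K2 ≤ K → 84 * D ≤ (8:ℝ) ^ K := by
    obtain ⟨n, hn⟩ := pow_unbounded_of_one_lt (84 * D) (show (1:ℝ) < 8 by norm_num)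
    exact ⟨n, fun K hK => hn.le.trans (pow_le_pow_right₀ (by norm_num) hK)⟩
  refine ⟨2 * E + 1, max (max K1 K2) (max (30 * ⌈D⌉₊ + 3) (2 * A + 3)), by omega, by omega, ?_⟩
  intro K hK a v hv h hh z m hp ht
  have hK1 : K1 ≤ K := by omega
  have hK2' : K2 ≤ K := by omega
  have hKD : 30 * ⌈D⌉₊ + 3 ≤ K := by omega
  have hKA : 2 * A + 3 ≤ K := by omega
  set U : ℕ := K ^ (E * K) with hU
  have hU1 : 1 ≤ U := Nat.one_le_pow _ _ (by omega)
  have hUR : (1:ℝ) ≤ U := by exact_mod_cast hU1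
  by_contra hcon
  push Not at hcon
  obtain ⟨u, hco, hρ1, hρU, hcr⟩ := exists_direction v hv U hU1
  set ρ := ‖(u : ℂ)‖
  have hfar : ρ * U ≤ ‖(z m : ℂ) - (z 0 : ℂ)‖ := by
    refine le_trans ?_ hcon
    have h3 : (3:ℕ) ≤ K ^ K := le_trans (by omega) (Nat.le_self_pow (by omega) K)
    have h4 : 3 * U * U ≤ K ^ ((2 * E + 1) * K) := by
      rw [hU, show (2 * E + 1) * K = K + (E * K + E * K) by ring, pow_add, pow_add, mul_assoc]
      exact Nat.mul_le_mul_right _ h3
    calc ρ * U ≤ 3 * U * U := by gcongr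
      _ ≤ _ := by exact_mod_cast h4
  obtain ⟨y, M, hy0, hyp, hyt, hyf, hyin, hyinj⟩ := exists_simple_exit hp ht hfar
  -- length
  have hM : ρ * U ≤ M * D := by
    refine hyf.trans ((dist_le_length (fun i => (y i : ℂ)) M).trans ?_)
    refine (sum_le_card_nsmul _ _ D fun i hi => hyp.2 i (mem_range.1 hi)).trans ?_
    simp
  -- starts
  let badPts := (range M).filter (fun i => (y i).norm.natAbs ≤ K ^ A)
  let starts := (range M).filter (fun i => i + K ≤ M ∧ ∀ j < K, K ^ A < (y (i + j)).norm.natAbs)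
  have hbadcard : badPts.card ≤ (2 * K ^ A + 1) ^ 2 := by
    have hinj : Set.InjOn y (badPts : Set ℕ) := by
      intro i hi j hj he
      have hi' := mem_range.1 (mem_filter.1 hi).1
      have hj' := mem_range.1 (mem_filter.1 hj).1
      exact hyinj i hi'.le j hj'.le he
    rw [← card_image_of_injOn hinj]
    refine small_norm_card _ _ fun x hx => ?_
    obtain ⟨i, hi, rfl⟩ := mem_image.1 hx
    exact (mem_filter.1 hi).2
  have hsplit : M ≤ starts.card + K + K * badPts.card := by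
    have hsub : range M ⊆ starts ∪ Ico (M - K) M ∪
        badPts.biUnion (fun b => Icc (b + 1 - K) b) := by
      intro i hi
      rw [mem_range] at hi
      by_cases hs : i + K ≤ M
      · by_cases hg : ∀ j < K, K ^ A < (y (i + j)).norm.natAbs
        · exact mem_union_left _ (mem_union_left _ (mem_filter.2 ⟨mem_range.2 hi, hs, hg⟩))
        · push Not at hg
          obtain ⟨j, hj, hb⟩ := hg
          refine mem_union_right _ (mem_biUnion.2 ⟨i + j,
            mem_filter.2 ⟨mem_range.2 (by omega), hb⟩, ?_⟩)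
          simp only [mem_Icc]
          omega
      · refine mem_union_left _ (mem_union_right _ (mem_Ico.2 ⟨by omega, hi⟩))
    have hb : ∀ b, (Icc (b + 1 - K) b).card ≤ K := by
      intro b
      rw [Nat.card_Icc]; omega
    have := card_le_card hsub
    rw [card_range] at this
    refine this.trans ((card_union_le _ _).trans (Nat.add_le_add ((card_union_le _ _).trans ?_)
      (card_biUnion_le.trans ((sum_le_card_nsmul _ _ K fun b _ => hb b).trans ?_))))
    · simp only [Nat.card_Ico]; omega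
    · rw [smul_eq_mul, mul_comm]
  -- coordinates adapted to `u`
  obtain ⟨α, β, hαβ⟩ := hco
  let w : GaussianInt := ⟨-β, α⟩
  let kk : ℕ → ℤ := fun i => u.re * ((y i).im - (y 0).im) - u.im * ((y i).re - (y 0).re)
  let tt : ℕ → ℤ := fun i => ((y i).re - (y 0).re) * α + ((y i).im - (y 0).im) * β
  have hdecomp : ∀ i, y i = (y 0 + (kk i : GaussianInt) * w) + (tt i : GaussianInt) * u := by
    intro i
    ext
    · simp [Zsqrtd.re_mul, Zsqrtd.re_intCast, Zsqrtd.im_intCast, kk, tt, w]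
      linear_combination (-((y i).re - (y 0).re)) * hαβ
    · simp [Zsqrtd.im_mul, Zsqrtd.re_intCast, Zsqrtd.im_intCast, kk, tt, w]
      linear_combination (-((y i).im - (y 0).im)) * hαβ
  set W : ℕ := ⌊ρ * (1 + 2 * h)⌋₊ with hW
  have hh0 : 0 ≤ h := le_trans (abs_nonneg _) (hyt 0 (Nat.zero_le _))
  have hkk : ∀ i < M, kk i ∈ Icc (-(W:ℤ)) W := by
    intro i hi
    set Δ : ℂ := (y i : ℂ) - (y 0 : ℂ) with hΔ
    have e1 : ((kk i : ℤ) : ℝ) = (u.re:ℝ) * Δ.im - (u.im:ℝ) * Δ.re := by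
      simp [kk, hΔ, gre, gim, -GaussianInt.intCast_re, -GaussianInt.intCast_im]
    have hn : v.re ^ 2 + v.im ^ 2 = 1 := by
      have := Complex.normSq_eq_norm_sq v
      rw [hv, Complex.normSq_apply] at this
      nlinarith
    have e2 : (u.re:ℝ) * Δ.im - (u.im:ℝ) * Δ.re
        = (Δ * conj v).re * ((u.re:ℝ) * v.im - (u.im:ℝ) * v.re)
          + (Δ * conj v).im * ((u.re:ℝ) * v.re + (u.im:ℝ) * v.im) := by
      simp only [Complex.mul_re, Complex.mul_im, Complex.conj_re, Complex.conj_im]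
      linear_combination (-((u.re:ℝ) * Δ.im - (u.im:ℝ) * Δ.re)) * hn
    have hb1 : |(Δ * conj v).re| ≤ ρ * U := by
      refine (Complex.abs_re_le_norm _).trans ?_
      rw [norm_mul, RCLike.norm_conj, hv, mul_one]
      exact (hyin i hi).le
    have hb2 : |(Δ * conj v).im| ≤ 2 * h := by
      have e : (Δ * conj v).im
          = (((y i : ℂ) - a) * conj v).im - (((y 0 : ℂ) - a) * conj v).im := by
        rw [← Complex.sub_im]; congr 1; ring
      rw [e]
      refine (abs_sub _ _).trans ?_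
      linarith [hyt i hi.le, hyt 0 (Nat.zero_le _)]
    have hb3 : |(u.re:ℝ) * v.re + (u.im:ℝ) * v.im| ≤ ρ := by
      have e : (u.re:ℝ) * v.re + (u.im:ℝ) * v.im = ((u : ℂ) * conj v).re := by
        simp [Complex.mul_re, gre, gim, -GaussianInt.intCast_re, -GaussianInt.intCast_im]
      rw [e]
      refine (Complex.abs_re_le_norm _).trans ?_
      rw [norm_mul, RCLike.norm_conj, hv, mul_one]
    have hb : |((kk i : ℤ) : ℝ)| ≤ ρ * (1 + 2 * h) := by
      rw [e1, e2]
      refine (abs_add_le _ _).trans ?_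
      rw [abs_mul, abs_mul]
      calc _ ≤ ρ * U * (1 / U) + 2 * h * ρ := by
            gcongr
        _ = _ := by field_simp
    have hb' : ((kk i).natAbs : ℕ) ≤ W := by
      refine Nat.le_floor ?_
      rw [Nat.cast_natAbs, Int.cast_abs]
      exact hb
    rw [mem_Icc]; omega
  -- one row
  have hrowk : ∀ k : ℤ, ((starts.filter (fun i => kk i = k)).card : ℝ)
      ≤ 2 * ((2 * U : ℕ) : ℝ) / 16 ^ K := by
    intro k
    set R := starts.filter (fun i => kk i = k) with hR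
    rcases R.eq_empty_or_nonempty with hRe | hRn
    · rw [hRe]; simp only [card_empty, Nat.cast_zero]; positivity
    have hinj : Set.InjOn tt (R : Set ℕ) := by
      intro i hi j hj he
      obtain ⟨hi1, hi2⟩ := mem_filter.1 hi
      obtain ⟨hj1, hj2⟩ := mem_filter.1 hj
      refine hyinj i (mem_range.1 (mem_filter.1 hi1).1).le j
        (mem_range.1 (mem_filter.1 hj1).1).le ?_
      rw [hdecomp i, hdecomp j, hi2, hj2, he]
    rw [← card_image_of_injOn hinj]
    obtain ⟨i0, hi0, hmin⟩ := exists_min_image R tt hRn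
    refine hrow K hK1 u (y 0 + (k : GaussianInt) * w) ⟨α, β, hαβ⟩ (tt i0) (2 * U)
      (le_of_eq (by rw [hU])) _ ?_ ?_
    · intro t ht
      obtain ⟨i, hi, rfl⟩ := mem_image.1 ht
      refine ⟨hmin i hi, ?_⟩
      obtain ⟨hi1, hi2⟩ := mem_filter.1 hi
      obtain ⟨hj1, hj2⟩ := mem_filter.1 hi0
      have hlt : ‖(y i : ℂ) - (y i0 : ℂ)‖ < 2 * (ρ * U) := by
        have h1 := hyin i (mem_range.1 (mem_filter.1 hi1).1)
        have h2 := hyin i0 (mem_range.1 (mem_filter.1 hj1).1)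
        have := norm_sub_le_norm_sub_add_norm_sub (y i : ℂ) (y 0 : ℂ) (y i0 : ℂ)
        rw [norm_sub_rev (y 0 : ℂ) (y i0 : ℂ)] at this
        linarith
      have e : (y i : ℂ) - (y i0 : ℂ) = ((tt i - tt i0 : ℤ) : ℂ) * (u : ℂ) := by
        rw [← GaussianInt.toComplex_sub]
        have : y i - y i0 = ((tt i - tt i0 : ℤ) : GaussianInt) * u := by
          conv_lhs => rw [hdecomp i, hdecomp i0, hi2, hj2]
          push_cast; ring
        rw [this, GaussianInt.toComplex_mul, map_intCast]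
      rw [e, norm_mul, Complex.norm_intCast] at hlt
      have h3 : |((tt i - tt i0 : ℤ) : ℝ)| < 2 * (U:ℝ) := by
        refine lt_of_mul_lt_mul_right ?_ (norm_nonneg (u : ℂ))
        calc _ < 2 * (ρ * U) := hlt
          _ = 2 * (U:ℝ) * ρ := by ring
      have h4 : |tt i - tt i0| < 2 * (U:ℤ) := by exact_mod_cast h3
      rw [abs_lt] at h4
      push_cast
      omega
    · intro t ht
      obtain ⟨i, hi, rfl⟩ := mem_image.1 ht
      obtain ⟨hi1, hi2⟩ := mem_filter.1 hi
      obtain ⟨hiM, hiK, hbig⟩ := mem_filter.1 hi1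
      refine ⟨fun j => y (i + j), ?_, fun j hj => ⟨hyp.1 _ (by omega), hbig j hj⟩, ?_, ?_⟩
      · rw [← hi2]; exact hdecomp i
      · intro j hj l hl he
        have := hyinj (i + j) (by omega) (i + l) (by omega) he
        omega
      · intro j hj
        exact coord_step (hyp.2 (i + j) (by omega))
  have hstarts : (starts.card : ℝ) ≤ (2 * (W:ℝ) + 1) * (2 * ((2 * U : ℕ) : ℝ) / 16 ^ K) := by
    rw [card_eq_sum_card_fiberwise (f := kk) (t := Icc (-(W:ℤ)) W)
      (fun i hi => hkk i (mem_range.1 (mem_filter.1 hi).1))]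
    push_cast
    refine (sum_le_card_nsmul _ _ _ fun k _ => hrowk k).trans ?_
    rw [nsmul_eq_mul, Int.card_Icc, show ((W:ℤ) + 1 - -(W:ℤ)).toNat = 2 * W + 1 by omega]
    push_cast
    exact le_rfl
  -- numerics
  have hWle : (W:ℝ) ≤ ρ * (1 + 2 * h) := Nat.floor_le (by positivity)
  have hsmall : (30 : ℝ) * D * ((K:ℝ) + K * ((2 * K ^ A + 1) ^ 2 : ℕ)) ≤ 10 * U := by
    have h1 : K + K * (2 * K ^ A + 1) ^ 2 ≤ 10 * K ^ (2 * A + 1) := by
      have hx : 1 ≤ K ^ A := Nat.one_le_pow _ _ (by omega)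
      have hx1 : (2 * K ^ A + 1) ^ 2 + 1 ≤ 10 * (K ^ A) ^ 2 := by nlinarith
      calc K + K * (2 * K ^ A + 1) ^ 2 = K * ((2 * K ^ A + 1) ^ 2 + 1) := by ring
        _ ≤ K * (10 * (K ^ A) ^ 2) := Nat.mul_le_mul_left _ hx1
        _ = _ := by ring
    have h2 : 30 * ⌈D⌉₊ * (K + K * (2 * K ^ A + 1) ^ 2) ≤ 10 * U := by
      calc 30 * ⌈D⌉₊ * (K + K * (2 * K ^ A + 1) ^ 2) ≤ K * (10 * K ^ (2 * A + 1)) :=
            Nat.mul_le_mul (by omega) h1
        _ = 10 * K ^ (2 * A + 2) := by ring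
        _ ≤ 10 * U := Nat.mul_le_mul_left _ (Nat.pow_le_pow_right (by omega)
            (le_trans (by omega) (Nat.le_mul_of_pos_left K hE)))
    calc (30 : ℝ) * D * ((K:ℝ) + K * ((2 * K ^ A + 1) ^ 2 : ℕ))
        ≤ (30 : ℝ) * (⌈D⌉₊ : ℕ) * ((K:ℝ) + K * ((2 * K ^ A + 1) ^ 2 : ℕ)) := by
          gcongr
          exact Nat.le_ceil D
      _ ≤ _ := by exact_mod_cast h2
  have hMr : (M:ℝ) ≤ starts.card + K + K * ((2 * K ^ A + 1) ^ 2 : ℕ) := by
    exact_mod_cast le_trans hsplit (by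
      have := Nat.mul_le_mul_left K hbadcard
      omega)
  have hmain : (starts.card : ℝ) * D ≤ ρ * U / 3 := by
    have h16 : (0:ℝ) < 16 ^ K := by positivity
    have h8 : 84 * D * 2 ^ K ≤ (16:ℝ) ^ K := by
      have := mul_le_mul_of_nonneg_right (hK2 K hK2') (by positivity : (0:ℝ) ≤ 2 ^ K)
      rw [← mul_pow] at this
      norm_num at this
      exact this
    have h1 : (2 * (W:ℝ) + 1) ≤ 7 * ρ * 2 ^ K := by
      have : (1:ℝ) ≤ 2 ^ K := one_le_pow₀ (by norm_num)
      nlinarith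
    calc (starts.card : ℝ) * D ≤ (7 * ρ * 2 ^ K) * (2 * ((2 * U : ℕ) : ℝ) / 16 ^ K) * D := by
          gcongr
          exact hstarts.trans (by gcongr)
      _ = ρ * U / 3 * ((84 * D * 2 ^ K) / 16 ^ K) := by push_cast; field_simp; ring
      _ ≤ ρ * U / 3 := mul_le_of_le_one_right (by positivity) ((div_le_one h16).2 h8)
  have hρU' : (U:ℝ) ≤ ρ * U := le_mul_of_one_le_left (by positivity) hρ1
  nlinarith [mul_le_mul_of_nonneg_right hMr hD.le]

end Vale.Agent.P015
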