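import Mathlib
import Vale.Agent.P015.Crossing

/-
Consequences: strips of width exp(c log R / log log R), tortuosity, counting.
-/

namespace Vale.Agent.P015

open Finset Filter

open ComplexConjugate

noncomputable local instance : DecidableEq GaussianInt := Classical.decEq _

/-- `log x / log log x` -/
noncomputable def ratio (x : ℝ) : ℝ := Real.log x / Real.log (Real.log x)

lemma ratio_large (B : ℝ) : ∃ X0 : ℝ, ∀ x, X0 ≤ x →
    16 ≤ x ∧ 1 ≤ Real.log (Real.log x) ∧ B ≤ ratio x ∧ ratio x ≤ Real.log x := by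
  have hlo := Real.isLittleO_log_id_atTop.bound (show (0:ℝ) < 1 / (|B| + 1) by positivity)
  obtain ⟨Y, hY⟩ := eventually_atTop.1 hlo
  refine ⟨max 16 (Real.exp (max (Real.exp 1) Y)), fun x hx => ?_⟩
  have hx16 : 16 ≤ x := le_trans (le_max_left _ _) hx
  have hlog : max (Real.exp 1) Y ≤ Real.log x :=
    (Real.le_log_iff_exp_le (by linarith)).2 (le_trans (le_max_right _ _) hx)
  have hl : Real.exp 1 ≤ Real.log x := le_trans (le_max_left _ _) hlog
  have hlpos : 0 < Real.log x := lt_of_lt_of_le (Real.exp_pos 1) hl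
  have hll : 1 ≤ Real.log (Real.log x) := (Real.le_log_iff_exp_le hlpos).2 hl
  refine ⟨hx16, hll, ?_, div_le_self hlpos.le hll⟩
  have h := hY (Real.log x) (le_trans (le_max_right _ _) hlog)
  simp only [Real.norm_eq_abs, id_eq, abs_of_pos hlpos,
    abs_of_pos (lt_of_lt_of_le one_pos hll)] at h
  rw [div_mul_eq_mul_div, one_mul, le_div_iff₀ (by positivity)] at h
  unfold ratio
  rw [le_div_iff₀ (by linarith)]
  nlinarith [le_abs_self B]

lemma ratio_mono {x y : ℝ} (hx : 16 ≤ x) (hxy : x ≤ y) : ratio x ≤ ratio y := by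
  have h16 : Real.exp 1 ≤ Real.log 16 := by
    rw [show (16:ℝ) = 2 ^ 4 by norm_num, Real.log_pow]
    have := Real.log_two_gt_d9
    have := Real.exp_one_lt_d9
    push_cast
    linarith
  have ha : Real.exp 1 ≤ Real.log x := h16.trans (Real.log_le_log (by norm_num) hx)
  have hab : Real.log x ≤ Real.log y := Real.log_le_log (by linarith) hxy
  have h0 : 0 < Real.log x := lt_of_lt_of_le (Real.exp_pos 1) ha
  have h1 : 1 ≤ Real.log (Real.log x) := (Real.le_log_iff_exp_le h0).2 ha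
  have h2 : 1 ≤ Real.log (Real.log y) := h1.trans (Real.log_le_log h0 hab)
  have := Real.log_div_self_antitoneOn (Set.mem_ofPred.2 ha) (Set.mem_ofPred.2 (ha.trans hab)) hab
  simp only at this
  unfold ratio
  rw [div_le_div_iff₀ (h0.trans_le hab) h0] at this
  rw [div_le_div_iff₀ (by linarith) (by linarith)]
  linarith

lemma pow_scale {F K : ℕ} {R : ℝ} (hF : 1 ≤ F) (hR : 16 ≤ R)
    (hll : 1 ≤ Real.log (Real.log R)) (hK0 : 1 ≤ K) (hK : (K:ℝ) ≤ ratio R / F) :
    (K:ℝ) ^ (F * K) ≤ R := by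
  have hl : 0 < Real.log R := Real.log_pos (by linarith)
  have hF' : (1:ℝ) ≤ F := by exact_mod_cast hF
  have hK' : (1:ℝ) ≤ K := by exact_mod_cast hK0
  have hKl : (K:ℝ) ≤ Real.log R := by
    refine hK.trans ((div_le_self ?_ hF').trans (div_le_self hl.le hll))
    exact div_nonneg hl.le (by linarith)
  have hlK : Real.log K ≤ Real.log (Real.log R) := Real.log_le_log (by linarith) hKl
  rw [← Real.log_le_log_iff (by positivity) (by linarith), Real.log_pow]
  unfold ratio at hK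
  rw [le_div_iff₀ (by linarith), le_div_iff₀ (by linarith)] at hK
  push_cast
  calc (F:ℝ) * K * Real.log K ≤ (F:ℝ) * K * Real.log (Real.log R) := by gcongr
    _ ≤ _ := by linarith

theorem strip_finite (D : ℝ) (hD : 0 < D) : ∃ c R0 : ℝ, 0 < c ∧ 16 ≤ R0 ∧ ∀ R, R0 ≤ R →
    ∀ (a v : ℂ), ‖v‖ = 1 → ∀ (z : ℕ → GaussianInt) (m : ℕ),
      IsPath D z m → InTube a v (Real.exp (c * ratio R)) z m →
      ‖(z m : ℂ) - (z 0 : ℂ)‖ < R := by
  obtain ⟨F, K0, hF, hK0, hcb⟩ := crossing_bound D hD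
  have hF' : (1:ℝ) ≤ F := by exact_mod_cast hF
  obtain ⟨X0, hX0⟩ := ratio_large (F * (K0 + 2))
  refine ⟨Real.log 2 / (2 * F), max 16 X0,
    div_pos (Real.log_pos (by norm_num)) (by linarith), le_max_left _ _, ?_⟩
  intro R hR a v hv z m hp ht
  obtain ⟨hR16, hll, hB, -⟩ := hX0 R (le_trans (le_max_right _ _) hR)
  set x := ratio R / F with hx
  have hxB : (K0:ℝ) + 2 ≤ x := by rw [hx, le_div_iff₀ (by linarith)]; linarith
  have hxK : K0 ≤ ⌊x⌋₊ := Nat.le_floor (by linarith)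
  have hfl : (⌊x⌋₊ : ℝ) ≤ x :=
    Nat.floor_le (by linarith [(Nat.cast_nonneg K0 : (0:ℝ) ≤ K0)])
  have hfl2 := Nat.lt_floor_add_one x
  refine (hcb ⌊x⌋₊ hxK a v hv _ ?_ z m hp ht).trans_le
    (pow_scale hF hR16 hll (by omega) hfl)
  calc Real.exp (Real.log 2 / (2 * F) * ratio R) ≤ Real.exp (Real.log 2 * ⌊x⌋₊) := by
        rw [Real.exp_le_exp]
        have : Real.log 2 / (2 * F) * ratio R = Real.log 2 * (x / 2) := by rw [hx]; ring
        rw [this]
        gcongr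
        linarith [(Nat.cast_nonneg K0 : (0:ℝ) ≤ K0)]
    _ = 2 ^ ⌊x⌋₊ := by
        rw [mul_comm, Real.exp_nat_mul, Real.exp_log (by norm_num)]

theorem strip_infinite (D : ℝ) (hD : 0 < D) : ∃ c : ℝ, 0 < c ∧
    ∀ z : ℕ → GaussianInt, Function.Injective z → (∀ n, Prime (z n)) →
      (∀ n, ‖(z (n + 1) : ℂ) - (z n : ℂ)‖ ≤ D) → ∀ a v : ℂ, ‖v‖ = 1 → ∀ N : ℕ,
        ∃ n, N ≤ n ∧
          Real.exp (c * ratio (‖(z n : ℂ)‖ + 16)) < |(((z n : ℂ) - a) * conj v).im| := by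
  obtain ⟨c, R0, hc, hR0, hfin⟩ := strip_finite D hD
  refine ⟨c / 2, by linarith, fun z hinj hprime hstep a v hv N => ?_⟩
  by_contra hcon
  push Not at hcon
  let y : ℕ → GaussianInt := fun n => z (N + n)
  obtain ⟨X1, hX1⟩ := ratio_large 0
  set R := max (max R0 X1) (‖(y 0 : ℂ)‖ + D + 16) with hR
  have hRR0 : R0 ≤ R := le_trans (le_max_left _ _) (le_max_left _ _)
  have hRy : ‖(y 0 : ℂ)‖ + D + 16 ≤ R := le_max_right _ _
  -- eventually leaves the ball
  have hex : ∃ n, R ≤ ‖(y n : ℂ) - (y 0 : ℂ)‖ := by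
    by_contra hh
    push Not at hh
    obtain ⟨B, hB⟩ := exists_nat_ge (R + ‖(y 0 : ℂ)‖)
    have hfin' : (Set.range y).Finite := by
      refine Set.Finite.subset ((((Icc (-(B:ℤ)) B) ×ˢ (Icc (-(B:ℤ)) B)).image
        (fun ab => (⟨ab.1, ab.2⟩ : GaussianInt))).finite_toSet) ?_
      rintro _ ⟨n, rfl⟩
      have hn : ‖(y n : ℂ)‖ ≤ B := by
        have := norm_le_norm_sub_add (y n : ℂ) (y 0 : ℂ)
        linarith [hh n]
      have h1 := (Complex.abs_re_le_norm (y n : ℂ)).trans hn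
      have h2 := (Complex.abs_im_le_norm (y n : ℂ)).trans hn
      rw [gre] at h1
      rw [gim] at h2
      have h1' : |(y n).re| ≤ (B:ℤ) := by exact_mod_cast h1
      have h2' : |(y n).im| ≤ (B:ℤ) := by exact_mod_cast h2
      rw [abs_le] at h1' h2'
      simp only [mem_coe, mem_image, mem_product, mem_Icc]
      exact ⟨((y n).re, (y n).im), ⟨h1', h2'⟩, rfl⟩
    exact Set.infinite_range_of_injective
      (fun i j h => Nat.add_left_cancel (hinj h)) hfin'
  classical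
  set m := Nat.find hex with hm
  have hall : ∀ i ≤ m, ‖(y i : ℂ)‖ + 16 ≤ R ^ 2 := by
    intro i hi
    have hb : ‖(y i : ℂ)‖ ≤ R + ‖(y 0 : ℂ)‖ + D := by
      rcases Nat.eq_zero_or_pos i with rfl | hpos
      · linarith [norm_nonneg (y 0 : ℂ)]
      · obtain ⟨j, rfl⟩ : ∃ j, i = j + 1 := ⟨i - 1, by omega⟩
        have := Nat.find_min hex (m := j) (by omega)
        push Not at this
        have hs : ‖(y (j + 1) : ℂ) - (y j : ℂ)‖ ≤ D := hstep (N + j)
        have h1 := norm_le_norm_sub_add (y (j + 1) : ℂ) (y j : ℂ)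
        have h2 := norm_le_norm_sub_add (y j : ℂ) (y 0 : ℂ)
        linarith
    have : (16:ℝ) ≤ R := le_trans hR0 hRR0
    nlinarith
  have hpath : IsPath D y m := ⟨fun i _ => hprime _, fun i _ => hstep (N + i)⟩
  obtain ⟨hR16, hll, -, -⟩ := hX1 R (le_trans (le_max_right _ _) (le_max_left _ _))
  have hl : 0 < Real.log R := Real.log_pos (by linarith)
  have htube : InTube a v (Real.exp (c * ratio R)) y m := by
    intro i hi
    refine (hcon (N + i) (Nat.le_add_right _ _)).trans ?_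
    rw [Real.exp_le_exp]
    have h1 : ratio (‖(y i : ℂ)‖ + 16) ≤ ratio (R ^ 2) :=
      ratio_mono (by linarith [norm_nonneg (y i : ℂ)]) (hall i hi)
    have h2 : ratio (R ^ 2) ≤ 2 * ratio R := by
      unfold ratio
      rw [Real.log_pow]; push_cast
      rw [mul_div_assoc']
      refine div_le_div_of_nonneg_left (by linarith) (by linarith) ?_
      exact Real.log_le_log hl (by linarith)
    calc c / 2 * ratio (‖(y i : ℂ)‖ + 16) ≤ c / 2 * (2 * ratio R) := by
          gcongr; exact h1.trans h2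
      _ = c * ratio R := by ring
  exact absurd (Nat.find_spec hex) (not_le.2 (hfin R hRR0 a v hv y m hpath htube))

lemma off_line_excess {s : ℝ} (hs : 0 < s) {A B x : ℂ} (hAB : ‖B - A‖ = s)
    (hoff : 1 < |((x - A) * conj ((B - A) / (s : ℂ))).im|) {S : ℝ} (hsS : s ≤ S) :
    s + 1 / (S + 1) ≤ ‖x - A‖ + ‖B - x‖ := by
  set v := (B - A) / (s : ℂ)
  have hv : ‖v‖ = 1 := by
    rw [norm_div, hAB, Complex.norm_real, Real.norm_eq_abs, abs_of_pos hs, div_self hs.ne']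
  set X := (x - A) * conj v
  have hBA : (B - A) * conj v = (s : ℂ) := by
    have hsC : (s : ℂ) ≠ 0 := by exact_mod_cast hs.ne'
    have : B - A = (s : ℂ) * v := (mul_div_cancel₀ _ hsC).symm
    rw [this, mul_assoc, Complex.mul_conj, Complex.normSq_eq_norm_sq, hv]
    simp
  have h1 : ‖x - A‖ = ‖X‖ := by simp [X, hv]
  have h2 : ‖B - x‖ = ‖conj ((s : ℂ) - X)‖ := by
    rw [RCLike.norm_conj, ← hBA, ← sub_mul, sub_sub_sub_cancel_right, norm_mul, RCLike.norm_conj,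
      hv, mul_one]
  rw [h1, h2]
  refine le_trans ?_ (norm_add_le _ _)
  have h3 : ‖X + conj ((s : ℂ) - X)‖ ^ 2 = s ^ 2 + (2 * X.im) ^ 2 := by
    rw [← Complex.normSq_eq_norm_sq, Complex.normSq_apply]
    simp
    ring
  have h4 : 1 < X.im ^ 2 := by
    rw [← sq_abs]; exact one_lt_pow₀ hoff (by norm_num)
  have hS : 0 < S + 1 := by linarith
  refine (sq_le_sq₀ (by positivity) (norm_nonneg _)).1 ?_
  rw [h3]
  have h5 : s * (1 / (S + 1)) ≤ 1 := by
    rw [mul_one_div, div_le_one hS]; linarith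
  have h6 : (1 / (S + 1)) ≤ 1 := by rw [div_le_one hS]; linarith
  nlinarith [mul_le_mul h6 h6 (by positivity) (by norm_num)]

theorem tortuosity (D : ℝ) (hD : 0 < D) : ∃ δ L0 : ℝ, 0 < δ ∧
    ∀ (z : ℕ → GaussianInt) (m : ℕ), IsPath D z m → L0 ≤ ‖(z m : ℂ) - (z 0 : ℂ)‖ →
      (1 + δ) * ‖(z m : ℂ) - (z 0 : ℂ)‖ ≤ ∑ i ∈ range m, ‖(z (i + 1) : ℂ) - (z i : ℂ)‖ := by
  obtain ⟨c, R0, hc, hR0, hfin⟩ := strip_finite D hD
  obtain ⟨X0, hX0⟩ := ratio_large 0
  set R1 := max R0 X0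
  have hR1 : 16 ≤ R1 := le_trans hR0 (le_max_left _ _)
  have hh : 1 ≤ Real.exp (c * ratio R1) := by
    refine Real.one_le_exp (mul_nonneg hc.le ?_)
    exact (hX0 R1 (le_max_right _ _)).2.2.1
  set L := R1 + D
  have hL : 0 < L := by linarith
  set η := 1 / (L + 1)
  have hη : 0 < η := by positivity
  have key : ∀ m, ∀ z : ℕ → GaussianInt, IsPath D z m →
      ‖(z m : ℂ) - (z 0 : ℂ)‖ + η * (‖(z m : ℂ) - (z 0 : ℂ)‖ / L - 1)
        ≤ ∑ i ∈ range m, ‖(z (i + 1) : ℂ) - (z i : ℂ)‖ := by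
    intro m
    induction m using Nat.strong_induction_on with
    | _ m ih =>
    intro z hp
    have htri := dist_le_length (fun i => (z i : ℂ)) m
    set d := ‖(z m : ℂ) - (z 0 : ℂ)‖
    by_cases hsmall : d < R1
    · have h1 : d / L - 1 ≤ 0 := by
        rw [sub_nonpos, div_le_one hL]; linarith
      nlinarith
    push Not at hsmall
    classical
    have hex : ∃ i, R1 ≤ ‖(z i : ℂ) - (z 0 : ℂ)‖ := ⟨m, hsmall⟩
    set i := Nat.find hex
    have him : i ≤ m := Nat.find_le hsmall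
    have hi : R1 ≤ ‖(z i : ℂ) - (z 0 : ℂ)‖ := Nat.find_spec hex
    set s := ‖(z i : ℂ) - (z 0 : ℂ)‖
    have hs : 0 < s := by linarith
    have hi0 : 0 < i := by
      by_contra h
      have h0 : i = 0 := by omega
      have : s = 0 := by simp [s, h0]
      linarith
    have hsL : s ≤ L := by
      obtain ⟨j, hj⟩ : ∃ j, i = j + 1 := ⟨i - 1, by omega⟩
      have := Nat.find_min hex (m := j) (by omega)
      push Not at this
      have hs' := hp.2 j (by omega)
      have := norm_sub_le_norm_sub_add_norm_sub (z i : ℂ) (z j : ℂ) (z 0 : ℂ)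
      simp only [s, hj] at this ⊢
      linarith
    have hpi : IsPath D z i := ⟨fun k hk => hp.1 k (by omega), fun k hk => hp.2 k (by omega)⟩
    set v := ((z i : ℂ) - (z 0 : ℂ)) / (s : ℂ)
    have hv : ‖v‖ = 1 := by
      rw [norm_div, Complex.norm_real, Real.norm_eq_abs, abs_of_pos hs, div_self hs.ne']
    have hoff : ∃ k ≤ i, Real.exp (c * ratio R1) < |(((z k : ℂ) - (z 0 : ℂ)) * conj v).im| := by
      by_contra h
      push Not at h
      exact absurd hi (not_le.2 (hfin R1 (le_max_left _ _) _ v hv z i hpi h))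
    obtain ⟨k, hk, hkoff⟩ := hoff
    have hex' := off_line_excess hs (A := (z 0 : ℂ)) (B := (z i : ℂ)) (x := (z k : ℂ)) rfl
      (lt_of_le_of_lt hh hkoff) hsL
    have h1 := dist_le_length (fun n => (z n : ℂ)) k
    have h2 := dist_le_length (fun n => (z (k + n) : ℂ)) (i - k)
    simp only [add_zero, ← add_assoc] at h2
    rw [Nat.add_sub_cancel' hk] at h2
    have hsum1 : ∑ n ∈ range i, ‖(z (n + 1) : ℂ) - (z n : ℂ)‖
        = ∑ n ∈ range k, ‖(z (n + 1) : ℂ) - (z n : ℂ)‖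
          + ∑ n ∈ range (i - k), ‖(z (k + n + 1) : ℂ) - (z (k + n) : ℂ)‖ := by
      rw [← sum_range_add (fun n => ‖(z (n + 1) : ℂ) - (z n : ℂ)‖), Nat.add_sub_cancel' hk]
    have hchunk : s + η ≤ ∑ n ∈ range i, ‖(z (n + 1) : ℂ) - (z n : ℂ)‖ := by
      rw [hsum1]; exact hex'.trans (add_le_add h1 h2)
    have hrest := ih (m - i) (by omega) (fun n => z (i + n))
      ⟨fun n hn => hp.1 _ (by omega), fun n hn => hp.2 (i + n) (by omega)⟩
    simp only [add_zero, ← add_assoc] at hrest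
    rw [Nat.add_sub_cancel' him] at hrest
    have hsum : ∑ n ∈ range m, ‖(z (n + 1) : ℂ) - (z n : ℂ)‖
        = ∑ n ∈ range i, ‖(z (n + 1) : ℂ) - (z n : ℂ)‖
          + ∑ n ∈ range (m - i), ‖(z (i + n + 1) : ℂ) - (z (i + n) : ℂ)‖ := by
      rw [← sum_range_add (fun n => ‖(z (n + 1) : ℂ) - (z n : ℂ)‖), Nat.add_sub_cancel' him]
    have htri2 : d ≤ ‖(z m : ℂ) - (z i : ℂ)‖ + s := norm_sub_le_norm_sub_add_norm_sub _ _ _
    set d' := ‖(z m : ℂ) - (z i : ℂ)‖
    have h3 : d / L ≤ d' / L + 1 := by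
      rw [div_add_one hL.ne']
      exact div_le_div_of_nonneg_right (by linarith) hL.le
    rw [hsum]
    nlinarith [mul_le_mul_of_nonneg_left h3 hη.le]
  refine ⟨η / (2 * L), 2 * L, by positivity, fun z m hp hlong => ?_⟩
  refine le_trans ?_ (key m z hp)
  set d := ‖(z m : ℂ) - (z 0 : ℂ)‖
  have h2 : 1 ≤ d / (2 * L) := by rwa [one_le_div (by positivity)]
  have e : (1 + η / (2 * L)) * d = d + η * (d / (2 * L)) := by ring
  have e2 : d / L = d / (2 * L) + d / (2 * L) := by field_simp; ring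
  rw [e, e2]
  nlinarith [mul_le_mul_of_nonneg_left h2 hη.le]

theorem long_path_count (D : ℝ) (hD : 0 < D) : ∃ c X0 : ℝ, 0 < c ∧ ∀ X : ℕ, X0 ≤ (X:ℝ) →
    ({z : GaussianInt | |z.re| ≤ (X:ℤ) ∧ |z.im| ≤ (X:ℤ) ∧ ∃ y : ℕ → GaussianInt, y 0 = z ∧
      (∀ i : ℕ, (i:ℝ) ≤ c * ratio X → Prime (y i)) ∧
      (∀ i j : ℕ, (i:ℝ) ≤ c * ratio X → (j:ℝ) ≤ c * ratio X → y i = y j → i = j) ∧
      ∀ i : ℕ, ((i + 1 : ℕ) : ℝ) ≤ c * ratio X →
        ‖(y (i + 1) : ℂ) - (y i : ℂ)‖ ≤ D}.ncard : ℝ)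
      ≤ (X:ℝ) ^ 2 * Real.exp (-(c * ratio X)) := by
  classical
  set Dn := ⌈D⌉₊
  obtain ⟨A, E, K1, hA, hE, hrow⟩ := row_bound Dn
  set E' := E + 1
  have hE' : (1:ℝ) ≤ (E' : ℝ) := by simp [E']
  obtain ⟨X0, hX0⟩ := ratio_large ((E':ℝ) * ((K1:ℝ) + (Dn:ℝ) + 2 * (A:ℝ) + 40))
  refine ⟨1 / E', X0, by positivity, fun X hX => ?_⟩
  obtain ⟨hX16, hll, hB, hrl⟩ := hX0 X hX
  set x := 1 / (E':ℝ) * ratio X with hx
  have hxB : (K1:ℝ) + Dn + 2 * A + 40 ≤ x := by
    rw [hx, div_mul_eq_mul_div, one_mul, le_div_iff₀ (by linarith)]; linarith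
  set K := ⌊x⌋₊
  have hKB : K1 + Dn + 2 * A + 40 ≤ K := Nat.le_floor (by push_cast; exact hxB)
  have hKx : (K:ℝ) ≤ x :=
    Nat.floor_le (le_trans (by positivity) hxB)
  have hxK : x ≤ K + 1 := (Nat.lt_floor_add_one x).le
  have hKX : K ^ (E' * K) ≤ X := by
    have := pow_scale (F := E') (K := K) (by omega) hX16 hll (by omega)
      (by rw [hx, div_mul_eq_mul_div, one_mul] at hKx; exact hKx)
    exact_mod_cast this
  set T := {z : GaussianInt | |z.re| ≤ (X:ℤ) ∧ |z.im| ≤ (X:ℤ) ∧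
      ∃ y : ℕ → GaussianInt, y 0 = z ∧
      (∀ i : ℕ, (i:ℝ) ≤ x → Prime (y i)) ∧
      (∀ i j : ℕ, (i:ℝ) ≤ x → (j:ℝ) ≤ x → y i = y j → i = j) ∧
      ∀ i : ℕ, ((i + 1 : ℕ) : ℝ) ≤ x → ‖(y (i + 1) : ℂ) - (y i : ℂ)‖ ≤ D}
  let mk : ℤ × ℤ → GaussianInt := fun ab => ⟨ab.1, ab.2⟩
  let good : ℤ → Finset ℤ := fun b => (Icc (-(X:ℤ)) X).filter
    (fun t => ShortPath Dn (K ^ A) K (⟨0, b⟩ + (t : GaussianInt) * 1))
  let P : Finset GaussianInt :=
    (Icc (-(X:ℤ)) X).biUnion (fun b => (good b).image (fun t => mk (t, b)))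
  set B := K ^ A + K * Dn
  let Q : Finset GaussianInt := ((Icc (-(B:ℤ)) B) ×ˢ (Icc (-(B:ℤ)) B)).image mk
  have hcover : T ⊆ ((P ∪ Q : Finset GaussianInt) : Set GaussianInt) := by
    rintro z ⟨hre, him, y, hy0, hyp, hyinj, hys⟩
    have hle : ∀ i < K, (i:ℝ) ≤ x := fun i hi => le_trans (by exact_mod_cast hi.le) hKx
    by_cases hbig : ∀ i < K, K ^ A < (y i).norm.natAbs
    · refine mem_coe.2 (mem_union_left _ (mem_biUnion.2 ⟨z.im, mem_Icc.2 (abs_le.1 him),
        mem_image.2 ⟨z.re, mem_filter.2 ⟨mem_Icc.2 (abs_le.1 hre), y, ?_,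
          fun i hi => ⟨hyp i (hle i hi), hbig i hi⟩,
          fun i hi j hj => hyinj i j (hle i hi) (hle j hj),
          fun i hi => coord_step (hys i (hle (i + 1) hi))⟩, rfl⟩⟩))
      rw [hy0]; ext <;> simp
    · push Not at hbig
      obtain ⟨i, hi, hsmall⟩ := hbig
      have hmove : ∀ j ≤ i, |(y j).re - z.re| ≤ (j:ℤ) * Dn ∧ |(y j).im - z.im| ≤ (j:ℤ) * Dn := by
        intro j hj
        induction j with
        | zero => simp [hy0]
        | succ j ih =>
          obtain ⟨a1, a2⟩ := ih (by omega)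
          obtain ⟨b1, b2⟩ := coord_step (hys j (hle (j + 1) (by omega)))
          rw [abs_le] at a1 a2 b1 b2
          push_cast
          rw [abs_le, abs_le]
          constructor <;> constructor <;> linarith
      have hn : (y i).re * (y i).re + (y i).im * (y i).im ≤ (K ^ A : ℕ) := by
        have : ((y i).norm.natAbs : ℤ) ≤ (K ^ A : ℕ) := by exact_mod_cast hsmall
        rw [Int.natAbs_of_nonneg (GaussianInt.norm_nonneg _), Zsqrtd.norm_def] at this
        linarith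
      have hone : (1:ℤ) ≤ (K ^ A : ℕ) := by exact_mod_cast Nat.one_le_pow _ _ (by omega)
      obtain ⟨a1, a2⟩ := hmove i le_rfl
      have hiK : (i:ℤ) * Dn ≤ (K:ℤ) * Dn := by gcongr
      have hyre : |(y i).re| ≤ (K ^ A : ℕ) := by
        rw [abs_le]; constructor <;> nlinarith [mul_self_nonneg (y i).im]
      have hyim : |(y i).im| ≤ (K ^ A : ℕ) := by
        rw [abs_le]; constructor <;> nlinarith [mul_self_nonneg (y i).re]
      rw [abs_le] at a1 a2 hyre hyim
      refine mem_coe.2 (mem_union_right _ (mem_image.2 ⟨(z.re, z.im), ?_, rfl⟩))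
      simp only [mem_product, mem_Icc, B]
      push_cast at hyre hyim ⊢
      constructor <;> constructor <;> linarith
  have hgood : ∀ b, ((good b).card : ℝ) ≤ 2 * ((2 * X + 1 : ℕ) : ℝ) / 16 ^ K := by
    intro b
    refine hrow K (by omega) 1 ⟨0, b⟩ ⟨1, 0, by simp⟩ (-(X:ℤ)) (2 * X + 1) ?_ _ ?_ ?_
    · have : K ^ (E * K) ≤ K ^ (E' * K) :=
        Nat.pow_le_pow_right (by omega) (Nat.mul_le_mul_right _ (by omega))
      omega
    · intro t ht
      have := mem_Icc.1 (mem_filter.1 ht).1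
      push_cast; omega
    · intro t ht
      exact (mem_filter.1 ht).2
  have hP : (P.card : ℝ) ≤ ((2 * X + 1 : ℕ) : ℝ) * (2 * ((2 * X + 1 : ℕ) : ℝ) / 16 ^ K) := by
    calc (P.card : ℝ) ≤ ∑ b ∈ Icc (-(X:ℤ)) X, ((good b).card : ℝ) := by
          exact_mod_cast card_biUnion_le.trans (sum_le_sum fun b _ => card_image_le)
      _ ≤ ∑ b ∈ Icc (-(X:ℤ)) X, 2 * ((2 * X + 1 : ℕ) : ℝ) / 16 ^ K :=
          sum_le_sum fun b _ => hgood b
      _ = _ := by
          rw [sum_const, nsmul_eq_mul, Int.card_Icc,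
            show ((X:ℤ) + 1 - -(X:ℤ)).toNat = 2 * X + 1 by omega]
  have hQ : Q.card ≤ X := by
    have h1 : Q.card ≤ (2 * B + 1) ^ 2 := by
      refine card_image_le.trans (le_of_eq ?_)
      simp only [card_product, Int.card_Icc]
      rw [show ((B:ℤ) + 1 - -(B:ℤ)).toNat = 2 * B + 1 by omega, sq]
    have hx1 : 1 ≤ K ^ A := Nat.one_le_pow _ _ (by omega)
    have h2 : B ≤ K ^ A * K ^ 2 := by
      show K ^ A + K * Dn ≤ _
      have : K * Dn + 1 ≤ K ^ 2 := by nlinarith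
      calc K ^ A + K * Dn ≤ K ^ A + K ^ A * (K * Dn) :=
            Nat.add_le_add_left (Nat.le_mul_of_pos_left _ hx1) _
        _ = K ^ A * (K * Dn + 1) := by ring
        _ ≤ _ := Nat.mul_le_mul_left _ this
    have h3 : (2 * B + 1) ^ 2 ≤ K * (K ^ A * K ^ 2) ^ 2 := by
      calc (2 * B + 1) ^ 2 ≤ (3 * (K ^ A * K ^ 2)) ^ 2 := by
            refine Nat.pow_le_pow_left ?_ 2
            have : 1 ≤ K ^ A * K ^ 2 := Nat.mul_pos hx1 (Nat.pow_pos (by omega))
            omega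
        _ = 9 * (K ^ A * K ^ 2) ^ 2 := by ring
        _ ≤ _ := Nat.mul_le_mul_right _ (by omega)
    refine h1.trans (h3.trans (le_trans ?_ hKX))
    rw [show K * (K ^ A * K ^ 2) ^ 2 = K ^ (2 * A + 5) by ring]
    exact Nat.pow_le_pow_right (by omega) (le_trans (by omega) (Nat.le_mul_of_pos_left K (by omega)))
  have hT : (T.ncard : ℝ) ≤ P.card + Q.card := by
    have h1 := Set.ncard_le_ncard hcover (P ∪ Q).finite_toSet
    rw [Set.ncard_coe_finset] at h1
    exact_mod_cast h1.trans (card_union_le _ _)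
  have hK' : (40:ℝ) ≤ K := by exact_mod_cast (by omega : 40 ≤ K)
  have hX' : (0:ℝ) < X := by linarith
  have he16 : 18 * Real.exp x ≤ (16:ℝ) ^ K / 2 := by
    have h1 : Real.exp x ≤ Real.exp 1 * Real.exp 1 ^ K := by
      rw [← Real.exp_nat_mul, ← Real.exp_add, Real.exp_le_exp]; linarith
    have h2 : Real.exp 1 < 3 := Real.exp_one_lt_three
    have h3 : Real.exp 1 * Real.exp 1 ^ K ≤ 3 * (3:ℝ) ^ K := by gcongr
    have h4 : 108 * (3:ℝ) ^ K ≤ (16:ℝ) ^ K := by
      have a : (108:ℝ) ≤ 5 ^ K :=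
        le_trans (by norm_num) (pow_le_pow_right₀ (by norm_num) (by omega : 3 ≤ K))
      calc 108 * (3:ℝ) ^ K ≤ 5 ^ K * 3 ^ K := by gcongr
        _ = 15 ^ K := by rw [← mul_pow]; norm_num
        _ ≤ _ := by gcongr; norm_num
    linarith
  have hPX : (P.card : ℝ) ≤ (X:ℝ) ^ 2 * Real.exp (-x) / 2 := by
    refine hP.trans ?_
    push_cast
    rw [Real.exp_neg, ← div_eq_mul_inv, div_div, mul_div_assoc',
      div_le_div_iff₀ (by positivity) (by positivity)]
    have h1 : (2 * (X:ℝ) + 1) * (2 * (2 * X + 1)) ≤ 18 * X ^ 2 := by nlinarith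
    calc (2 * (X:ℝ) + 1) * (2 * (2 * X + 1)) * (Real.exp x * 2)
        ≤ 18 * (X:ℝ) ^ 2 * (Real.exp x * 2) := by gcongr
      _ = (X:ℝ) ^ 2 * (2 * (18 * Real.exp x)) := by ring
      _ ≤ _ := by gcongr; linarith
  have hQX : (Q.card : ℝ) ≤ (X:ℝ) ^ 2 * Real.exp (-x) / 2 := by
    refine le_trans (Nat.cast_le.2 hQ) ?_
    rw [Real.exp_neg, ← div_eq_mul_inv, div_div, le_div_iff₀ (by positivity)]
    have h1 : x ≤ Real.log X - 1 := by
      have hl : (40:ℝ) ≤ x := le_trans hK' hKx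
      have hE2 : (2:ℝ) ≤ E' := by
        exact_mod_cast (show 2 ≤ E' by omega)
      have : 2 * x ≤ ratio X := by
        calc 2 * x ≤ (E':ℝ) * x := mul_le_mul_of_nonneg_right hE2 (by linarith)
          _ = ratio X := by rw [hx]; field_simp
      linarith
    have h2 : Real.exp x * 2 ≤ X := by
      calc Real.exp x * 2 ≤ Real.exp (Real.log X - 1) * Real.exp 1 := by
            gcongr
            linarith [Real.add_one_le_exp (1:ℝ)]
        _ = X := by rw [← Real.exp_add, sub_add_cancel, Real.exp_log hX']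
    rw [sq]; gcongr
  linarith

end Vale.Agent.P015
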